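import Crest.Agent.N346.An.UB0

/-!
Row 346, An: calculus of the classes `UB`, `UB1`, `UC`, `Pol`.
-/

set_option autoImplicit false
set_option linter.unusedSectionVars false
open MeasureTheory Filter Topology Set Metric
open scoped ContDiff
open Crest.GeometryTopology.CoordMetric
open Crest.MathPhysics.ExteriorData
open Crest.Agent.R238 (HB Ell)

noncomputable section

namespace Crest.Agent.N346.An

variable {n : ℕ} {ι κ : Type}

theorem UB.pd {N : E n → ℝ} {u : ι → E n → ℝ} (h : UB N u) (k : Fin n) :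
    UB N fun i => pderiv k (u i) := h.fd_apply _

theorem convex_N0 (M : ℝ) : Convex ℝ {y : Y0 n | N0 y ≤ M} := by
  have e : {y : Y0 n | N0 y ≤ M} = LinearMap.snd ℝ (E n) (S0 n) ⁻¹' closedBall 0 M := by
    ext y
    simp [N0]
  rw [e]
  exact (convex_closedBall (0 : S0 n) M).linear_preimage _

theorem convex_N1 (M : ℝ) : Convex ℝ {y : Y1 n | N1 y ≤ M} := by
  have e : {y : Y1 n | N1 y ≤ M} = LinearMap.fst ℝ (Y0 n) (Xi n) ⁻¹' {y | N0 y ≤ M} ∩
      LinearMap.snd ℝ (Y0 n) (Xi n) ⁻¹' closedBall 0 M := by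
    ext y
    simp [N0, N1]
  rw [e]
  exact ((convex_N0 M).linear_preimage _).inter
    ((convex_closedBall (0 : Xi n) M).linear_preimage _)

/-- functions of the point only -/
theorem UC.lift {F : Type} [NormedAddCommGroup F] [NormedSpace ℝ F] {u : ι → E n → F}
    (h : UC u) : UB N0 fun i (y : Y0 n) => u i y.1 := by
  exact UB.comp h (UB1.clm (ContinuousLinearMap.fst ℝ (E n) (S0 n))) fun _ => ⟨0, fun _ _ _ => le_rfl⟩

theorem ub_state : UB N0 fun (_ : ι) (y : Y0 n) => y.2 := by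
  exact (UB1.clm (ContinuousLinearMap.snd ℝ (E n) (S0 n))).ub fun M => ⟨M, fun _ _ hy => hy⟩

theorem ub_f : UB N0 fun (_ : ι) (y : Y0 n) => y.2.1 := by
  exact ub_state.clm (ContinuousLinearMap.fst ℝ ℝ _)

theorem ub_z : UB N0 fun (_ : ι) (y : Y0 n) => y.2.2.1 := by
  exact (ub_state.clm (ContinuousLinearMap.snd ℝ ℝ _)).clm (ContinuousLinearMap.fst ℝ ℝ _)

theorem ub_p (k : Fin n) : UB N0 fun (_ : ι) (y : Y0 n) => y.2.2.2 k := by
  exact ((ub_state.clm (ContinuousLinearMap.snd ℝ ℝ _)).clm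
    (ContinuousLinearMap.snd ℝ ℝ _)).apply k

theorem contDiff_st {f z : E n → ℝ} (hf : ContDiff ℝ ∞ f) (hz : ContDiff ℝ ∞ z) :
    ContDiff ℝ ∞ (st f z) := by
  exact contDiff_id.prodMk (hf.prodMk (hz.prodMk (contDiff_pi.2 fun i => Bs.contDiff_pd hf i)))

theorem contDiff_xi {f z : E n → ℝ} (hf : ContDiff ℝ ∞ f) (hz : ContDiff ℝ ∞ z) :
    ContDiff ℝ ∞ (xi f z) := by
  exact (contDiff_pi.2 fun i => Bs.contDiff_pd hz i).prodMk
    (contDiff_pi.2 fun i => contDiff_pi.2 fun j => Bs.contDiff_pd (Bs.contDiff_pd hf j) i)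

theorem uc_st2 {f z : ι → E n → ℝ} (hf : UC f) (hz : UC z) :
    UC fun i x => (st (f i) (z i) x).2 :=
  UB.prodMk hf (UB.prodMk hz (UB.pi fun k => UB.pd hf k))

theorem ub1_st {f z : ι → E n → ℝ} (hf : UC f) (hz : UC z) :
    UB1 (fun _ => (0 : ℝ)) fun i => st (f i) (z i) := by
  exact UB1.id.prodMk (uc_st2 hf hz).ub1

theorem uc_xi {f z : ι → E n → ℝ} (hf : UC f) (hz : UC z) : UC fun i => xi (f i) (z i) := by
  exact UB.prodMk (UB.pi fun k => UB.pd hz k)
    (UB.pi fun k => UB.pi fun l => UB.pd (UB.pd hf l) k)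

/-- `UC` solutions have bounded jets -/
theorem n1_bdd {f z : ι → E n → ℝ} (hf : UC f) (hz : UC z) :
    ∃ M, ∀ i x, N1 (st (f i) (z i) x, xi (f i) (z i) x) ≤ M := by
  obtain ⟨C, -, hC⟩ := (uc_st2 hf hz).bdd 0
  obtain ⟨C', -, hC'⟩ := (uc_xi hf hz).bdd 0
  exact ⟨max C C', fun i x => max_le_max (hC i x le_rfl) (hC' i x le_rfl)⟩

/-- a `UB` coefficient along a `UC` family of states -/
theorem UB.along {F : Type} [NormedAddCommGroup F] [NormedSpace ℝ F] {Θ : ι → Y0 n → F}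
    (h : UB N0 Θ) {f z : ι → E n → ℝ} (hf : UC f) (hz : UC z) :
    UC fun i x => Θ i (st (f i) (z i) x) := by
  obtain ⟨C, -, hC⟩ := (uc_st2 hf hz).bdd 0
  exact h.comp (ub1_st hf hz) fun _ => ⟨C, fun i x _ => hC i x le_rfl⟩

theorem gsq_nonneg (z : E n → ℝ) (x : E n) : 0 ≤ gsq z x := Finset.sum_nonneg fun _ _ => sq_nonneg _

theorem gsq_le_en (f z : E n → ℝ) (x : E n) : gsq z x ≤ en f z x := by
  exact le_add_of_nonneg_left
    (Finset.sum_nonneg fun _ _ => Finset.sum_nonneg fun _ _ => sq_nonneg _)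

theorem en_nonneg (f z : E n → ℝ) (x : E n) : 0 ≤ en f z x := (gsq_nonneg z x).trans (gsq_le_en f z x)

theorem abs_pd_le_gsq (z : E n → ℝ) (x : E n) (k : Fin n) : |pderiv k z x| ≤ √(gsq z x) := by
  exact Real.abs_le_sqrt (Finset.single_le_sum (f := fun i => pderiv i z x ^ 2)
    (fun _ _ => sq_nonneg _) (Finset.mem_univ k))

theorem abs_pd2_le_en (f z : E n → ℝ) (x : E n) (k l : Fin n) :
    |pderiv k (pderiv l f) x| ≤ √(en f z x) := by
  refine Real.abs_le_sqrt (le_add_of_le_of_nonneg ?_ (gsq_nonneg z x))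
  exact (Finset.single_le_sum (f := fun j => pderiv k (pderiv j f) x ^ 2)
    (fun _ _ => sq_nonneg _) (Finset.mem_univ l)).trans
    (Finset.single_le_sum (f := fun i => ∑ j, pderiv i (pderiv j f) x ^ 2)
      (fun _ _ => Finset.sum_nonneg fun _ _ => sq_nonneg _) (Finset.mem_univ k))

theorem norm_xi_le (f z : E n → ℝ) (x : E n) : ‖xi f z x‖ ≤ √(en f z x) := by
  have h0 := Real.sqrt_nonneg (en f z x)
  refine norm_prod_le_iff.2 ⟨(pi_norm_le_iff_of_nonneg h0).2 fun k => ?_,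
    (pi_norm_le_iff_of_nonneg h0).2 fun k => (pi_norm_le_iff_of_nonneg h0).2 fun l => ?_⟩
  · exact (abs_pd_le_gsq z x k).trans (Real.sqrt_le_sqrt (gsq_le_en f z x))
  · exact abs_pd2_le_en f z x k l

theorem abs_xi1_le (ξ : Xi n) (k : Fin n) : |ξ.1 k| ≤ ‖ξ‖ :=
  (norm_le_pi_norm ξ.1 k).trans (norm_fst_le ξ)

theorem abs_xi2_le (ξ : Xi n) (k l : Fin n) : |ξ.2 k l| ≤ ‖ξ‖ :=
  ((norm_le_pi_norm (ξ.2 k) l).trans (norm_le_pi_norm ξ.2 k)).trans (norm_snd_le ξ)


/-- chain rule along a state -/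
theorem pderiv_along {Θ : Y0 n → ℝ} {f z : E n → ℝ} (hΘ : ContDiff ℝ ∞ Θ) (hf : ContDiff ℝ ∞ f)
    (hz : ContDiff ℝ ∞ z) (j : Fin n) (x : E n) :
    pderiv j (fun y => Θ (st f z y)) x = fderiv ℝ Θ (st f z x)
      (EuclideanSpace.single j 1, pderiv j f x, pderiv j z x,
        fun k => pderiv j (pderiv k f) x) := by
  have hs : HasFDerivAt (st f z) ((ContinuousLinearMap.id ℝ (E n)).prod ((fderiv ℝ f x).prod
      ((fderiv ℝ z x).prod (ContinuousLinearMap.pi fun k => fderiv ℝ (pderiv k f) x)))) x :=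
    (hasFDerivAt_id x).prodMk ((Bs.smooth_diff hf x).hasFDerivAt.prodMk
      ((Bs.smooth_diff hz x).hasFDerivAt.prodMk (hasFDerivAt_pi.2 fun k =>
        (Bs.smooth_diff (Bs.contDiff_pd hf k) x).hasFDerivAt)))
  have := ((hΘ.differentiable (by simp)) (st f z x)).hasFDerivAt.comp x hs
  exact congrArg (fun L : E n →L[ℝ] ℝ => L (EuclideanSpace.single j 1)) this.fderiv

/-- derivative of a `UB` coefficient along a bounded state -/
theorem UB.pd_along_le {Θ : ι → Y0 n → ℝ} (h : UB N0 Θ) (M : ℝ) :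
    ∃ C, 0 ≤ C ∧ ∀ i (f z : E n → ℝ), ContDiff ℝ ∞ f → ContDiff ℝ ∞ z → ∀ x j,
      N0 (st f z x) ≤ M → |pderiv j (fun y => Θ i (st f z y)) x| ≤ C * (1 + √(en f z x)) := by
  obtain ⟨C, hC0, hC⟩ := h.bdd1 M
  refine ⟨C * (1 + max M 0), by positivity, fun i f z hf hz x j hx => ?_⟩
  rw [pderiv_along (h.1 i) hf hz]
  have h0 := Real.sqrt_nonneg (en f z x)
  have hM := le_max_right M 0
  have hb : ‖((EuclideanSpace.single j 1, pderiv j f x, pderiv j z x,
      fun k => pderiv j (pderiv k f) x) : Y0 n)‖ ≤ (1 + max M 0) * (1 + √(en f z x)) := by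
    have a1 : |pderiv j f x| ≤ max M 0 :=
      ((norm_le_pi_norm (st f z x).2.2.2 j).trans ((norm_snd_le _).trans (norm_snd_le _))).trans
        (hx.trans (le_max_left _ _))
    have a2 := (abs_pd_le_gsq z x j).trans (Real.sqrt_le_sqrt (gsq_le_en f z x))
    have a3 : √(en f z x) ≤ (1 + max M 0) * (1 + √(en f z x)) := by nlinarith
    refine norm_prod_le_iff.2 ⟨?_, norm_prod_le_iff.2 ⟨a1.trans (by nlinarith),
      norm_prod_le_iff.2 ⟨a2.trans a3, (pi_norm_le_iff_of_nonneg (h0.trans a3)).2 fun k =>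
        (abs_pd2_le_en f z x j k).trans a3⟩⟩⟩
    simp only [PiLp.norm_single, norm_one]
    nlinarith
  calc _ ≤ _ := (fderiv ℝ (Θ i) (st f z x)).le_opNorm _
    _ ≤ C * ((1 + max M 0) * (1 + √(en f z x))) :=
      mul_le_mul (hC i _ hx) hb (norm_nonneg _) hC0
    _ = _ := by ring

/-! ### polynomials in the top order state -/

section pol

variable {d e : ℕ} {P Q : ι → Y1 n → ℝ}

theorem Pol.congr (h : Pol d P) (he : ∀ i y, Q i y = P i y) : Pol d Q := by
  have : Q = P := funext fun i => funext (he i)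
  rwa [this]

theorem Pol.le (h : Pol d P) (hde : d ≤ e) : Pol e P := by
  induction hde with
  | refl => exact h
  | step _ ih => exact ih.mono

theorem Pol.reindex (h : Pol d P) (r : κ → ι) : Pol d fun k => P (r k) := by
  induction h with
  | coef hc => exact Pol.coef (hc.reindex r)
  | var1 k => exact Pol.var1 k
  | var2 k l => exact Pol.var2 k l
  | add _ _ ih ih' => exact ih.add ih'
  | mul _ _ ih ih' => exact ih.mul ih'
  | mono _ ih => exact ih.mono

theorem Pol.coef' {c : ι → Y0 n → ℝ} (h : UB N0 c) (d : ℕ) : Pol d fun i (y : Y1 n) => c i y.1 :=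
  (Pol.coef h).le (Nat.zero_le d)

theorem Pol.const (c : ℝ) (d : ℕ) : Pol d fun (_ : ι) (_ : Y1 n) => c := Pol.coef' (UB.const' c) d

theorem Pol.cmul {c : ι → Y0 n → ℝ} (hc : UB N0 c) (h : Pol d P) :
    Pol d fun i y => c i y.1 * P i y := by
  simpa using (Pol.coef hc).mul h

theorem Pol.const_mul (c : ℝ) (h : Pol d P) : Pol d fun i y => c * P i y := h.cmul (UB.const' c)

theorem Pol.neg (h : Pol d P) : Pol d fun i y => -P i y := (h.const_mul (-1)).congr fun _ _ => (neg_one_mul _).symm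

theorem Pol.sub (h : Pol d P) (h' : Pol d Q) : Pol d fun i y => P i y - Q i y := by
  exact (h.add h'.neg).congr fun _ _ => sub_eq_add_neg _ _

theorem Pol.sum {α : Type*} (s : Finset α) {w : α → ι → Y1 n → ℝ} (h : ∀ a ∈ s, Pol d (w a)) :
    Pol d fun i y => ∑ a ∈ s, w a i y := by
  classical
  induction s using Finset.induction_on with
  | empty => exact (Pol.const 0 d).congr fun i y => Finset.sum_empty
  | insert a s ha ih =>
    exact ((h a (Finset.mem_insert_self _ _)).add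
      (ih fun b hb => h b (Finset.mem_insert_of_mem hb))).congr fun i y => Finset.sum_insert ha

theorem Pol.mul11 (h : Pol 1 P) (h' : Pol 1 Q) : Pol 2 fun i y => P i y * Q i y := h.mul h'

theorem Pol.sq (h : Pol 1 P) : Pol 2 fun i y => P i y ^ 2 := (h.mul11 h).congr fun _ _ => pow_two _

theorem ub_top : UB N1 fun (_ : ι) (y : Y1 n) => y.2 :=
  (UB1.clm (ContinuousLinearMap.snd ℝ (Y0 n) (Xi n))).ub fun M =>
    ⟨M, fun _ _ hy => (le_max_right _ _).trans hy⟩

theorem UB.lift1 {F : Type} [NormedAddCommGroup F] [NormedSpace ℝ F] {c : ι → Y0 n → F}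
    (h : UB N0 c) : UB N1 fun i (y : Y1 n) => c i y.1 :=
  h.comp (UB1.clm (ContinuousLinearMap.fst ℝ (Y0 n) (Xi n))) fun M =>
    ⟨M, fun _ _ hy => (le_max_left _ _).trans hy⟩

theorem Pol.ub (h : Pol d P) : UB N1 P := by
  induction h with
  | coef hc => exact hc.lift1
  | var1 k => exact (ub_top.clm (ContinuousLinearMap.fst ℝ _ _)).apply k
  | var2 k l => exact ((ub_top.clm (ContinuousLinearMap.snd ℝ _ _)).apply k).apply l
  | add _ _ ih ih' => exact ih.add ih'
  | mul _ _ ih ih' => exact ih.mul ih'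
  | mono _ ih => exact ih

theorem Pol.bound (h : Pol d P) (M : ℝ) :
    ∃ C, 0 ≤ C ∧ ∀ i y, N0 y.1 ≤ M → |P i y| ≤ C * (1 + ‖y.2‖) ^ d := by
  induction h with
  | coef hc =>
    obtain ⟨C, hC0, hC⟩ := hc.bdd M
    exact ⟨C, hC0, fun i y hy => by simpa using hC i y.1 hy⟩
  | var1 k => exact ⟨1, zero_le_one, fun i y _ => by linarith [abs_xi1_le y.2 k]⟩
  | var2 k l => exact ⟨1, zero_le_one, fun i y _ => by linarith [abs_xi2_le y.2 k l]⟩
  | add _ _ ih ih' =>
    obtain ⟨C, hC0, hC⟩ := ih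
    obtain ⟨C', hC0', hC'⟩ := ih'
    refine ⟨C + C', by positivity, fun i y hy => (abs_add_le _ _).trans ?_⟩
    linarith [hC i y hy, hC' i y hy]
  | mul _ _ ih ih' =>
    obtain ⟨C, hC0, hC⟩ := ih
    obtain ⟨C', hC0', hC'⟩ := ih'
    refine ⟨C * C', by positivity, fun i y hy => ?_⟩
    rw [abs_mul, pow_add]
    exact (mul_le_mul (hC i y hy) (hC' i y hy) (abs_nonneg _) (by positivity)).trans_eq (by ring)
  | mono _ ih =>
    obtain ⟨C, hC0, hC⟩ := ih
    refine ⟨C, hC0, fun i y hy => (hC i y hy).trans (mul_le_mul_of_nonneg_left ?_ hC0)⟩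
    exact pow_le_pow_right₀ (by linarith [norm_nonneg y.2]) (Nat.le_succ _)

theorem nat_pow_aux (d e : ℕ) (T : ℝ) :
    (d : ℝ) * T ^ (d - 1) * T ^ e = d * T ^ (d + e - 1) := by
  cases d with
  | zero => simp
  | succ d => rw [Nat.add_sub_cancel, show d + 1 + e - 1 = d + e by omega, pow_add, mul_assoc]

/-- difference estimate; the factor `d` makes it stable under products -/
theorem Pol.diff (h : Pol d P) (M : ℝ) :
    ∃ C, 0 ≤ C ∧ ∀ i y y' (R : ℝ), N0 y.1 ≤ M → N0 y'.1 ≤ M → ‖y.2‖ ≤ R → ‖y'.2‖ ≤ R →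
      |P i y - P i y'| ≤ C * ((1 + R) ^ d * ‖y.1 - y'.1‖
        + d * (1 + R) ^ (d - 1) * ‖y.2 - y'.2‖) := by
  induction h with
  | coef hc =>
    obtain ⟨C, hC0, hC⟩ := hc.lip convex_N0 M
    exact ⟨C, hC0, fun i y y' R hy hy' _ _ => by simpa using hC i y.1 y'.1 hy hy'⟩
  | var1 k =>
    refine ⟨1, zero_le_one, fun i y y' R _ _ hR _ => ?_⟩
    have h1 : |y.2.1 k - y'.2.1 k| ≤ ‖y.2 - y'.2‖ := abs_xi1_le (y.2 - y'.2) k
    have h2 : 0 ≤ (1 + R) * ‖y.1 - y'.1‖ :=
      mul_nonneg (by linarith [norm_nonneg y.2]) (norm_nonneg _)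
    simp only [pow_one, Nat.cast_one, Nat.sub_self, pow_zero]
    linarith
  | var2 k l =>
    refine ⟨1, zero_le_one, fun i y y' R _ _ hR _ => ?_⟩
    have h1 : |y.2.2 k l - y'.2.2 k l| ≤ ‖y.2 - y'.2‖ := abs_xi2_le (y.2 - y'.2) k l
    have h2 : 0 ≤ (1 + R) * ‖y.1 - y'.1‖ :=
      mul_nonneg (by linarith [norm_nonneg y.2]) (norm_nonneg _)
    simp only [pow_one, Nat.cast_one, Nat.sub_self, pow_zero]
    linarith
  | add _ _ ih ih' =>
    obtain ⟨C, hC0, hC⟩ := ih
    obtain ⟨C', hC0', hC'⟩ := ih'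
    refine ⟨C + C', by positivity, fun i y y' R hy hy' hR hR' => ?_⟩
    rw [add_sub_add_comm]
    refine (abs_add_le _ _).trans ?_
    linarith [hC i y y' R hy hy' hR hR', hC' i y y' R hy hy' hR hR']
  | @mul d e F G hF hG ih ih' =>
    obtain ⟨C, hC0, hC⟩ := ih
    obtain ⟨C', hC0', hC'⟩ := ih'
    obtain ⟨B, hB0, hB⟩ := hF.bound M
    obtain ⟨B', hB0', hB'⟩ := hG.bound M
    refine ⟨C * B' + B * C', by positivity, fun i y y' R hy hy' hR hR' => ?_⟩
    have hR0 : 0 ≤ R := (norm_nonneg _).trans hR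
    have b1 : |F i y'| ≤ B * (1 + R) ^ d := (hB i y' hy').trans (by gcongr)
    have b2 : |G i y| ≤ B' * (1 + R) ^ e := (hB' i y hy).trans (by gcongr)
    have c1 := hC i y y' R hy hy' hR hR'
    have c2 := hC' i y y' R hy hy' hR hR'
    have e1 := nat_pow_aux d e (1 + R)
    have e2 := nat_pow_aux e d (1 + R)
    rw [add_comm e d] at e2
    have hT : 0 ≤ 1 + R := by linarith
    have ha := norm_nonneg (y.1 - y'.1)
    have hb := norm_nonneg (y.2 - y'.2)
    generalize 1 + R = T at *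
    generalize ‖y.1 - y'.1‖ = a at *
    generalize ‖y.2 - y'.2‖ = b at *
    have hd : (0 : ℝ) ≤ d := Nat.cast_nonneg d
    have he : (0 : ℝ) ≤ e := Nat.cast_nonneg e
    have hp : 0 ≤ T ^ (d + e - 1) := pow_nonneg hT _
    calc |F i y * G i y - F i y' * G i y'|
        = |(F i y - F i y') * G i y + F i y' * (G i y - G i y')| := by ring_nf
      _ ≤ |F i y - F i y'| * |G i y| + |F i y'| * |G i y - G i y'| := by
        rw [← abs_mul, ← abs_mul]; exact abs_add_le _ _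
      _ ≤ C * (T ^ d * a + d * T ^ (d - 1) * b) * (B' * T ^ e)
          + B * T ^ d * (C' * (T ^ e * a + e * T ^ (e - 1) * b)) := by gcongr
      _ = C * B' * (T ^ (d + e) * a + d * T ^ (d - 1) * T ^ e * b)
          + B * C' * (T ^ (d + e) * a + e * T ^ (e - 1) * T ^ d * b) := by rw [pow_add]; ring
      _ ≤ C * B' * (T ^ (d + e) * a + (d + e) * T ^ (d + e - 1) * b)
          + B * C' * (T ^ (d + e) * a + (d + e) * T ^ (d + e - 1) * b) := by
        rw [e1, e2]; gcongr <;> linarith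
      _ = _ := by push_cast; ring
  | @mono d F _ ih =>
    obtain ⟨C, hC0, hC⟩ := ih
    refine ⟨C, hC0, fun i y y' R hy hy' hR hR' =>
      (hC i y y' R hy hy' hR hR').trans (mul_le_mul_of_nonneg_left ?_ hC0)⟩
    have hT : 1 ≤ 1 + R := by linarith [(norm_nonneg _).trans hR]
    push_cast
    gcongr <;> first | linarith | omega

end pol

theorem Adm.reindex {S : ι → Sys n} (h : Adm S) (r : κ → ι) : Adm fun k => S (r k) := by
  refine ⟨fun k l => (h.a1 k l).reindex r, fun k => (h.b1 k).reindex r, h.c1.reindex r,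
    fun k l => (h.a2 k l).reindex r, h.F2.reindex r, fun M => ?_⟩
  obtain ⟨lo, hi, h1, h2, h3⟩ := h.ell M
  exact ⟨lo, hi, h1, h2, fun i => h3 (r i)⟩

end Crest.Agent.N346.An

end
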