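import Crest.Agent.N346.Defs
import Crest.Agent.R238.HolDefs

/-!
Row 346, Part 1, ABSTRACT ANALYSIS (helper53): FROZEN definitions and leaf statements.
No geometry here.  Unknowns `f z : E n → ℝ`; the system is triangular:

  `a1(x,f,z,df) : d²f = c1(x,f,z,df) + b1(x,f,z,df) · dz`,
  `a2(x,f,z,df) : d²z = F2(x,f,z,df; dz,d²f)`   (`F2` polynomial of degree `≤ 2` in `(dz,d²f)`).

Main statements: `RegStmt` (a priori `C^k` bounds), `ExStmt`/`Ex2Stmt` (Leray-Schauder on a torus),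
`LimStmt` (smooth Arzela-Ascoli), `DecayStmt`, `PerStmt`.  See the team note "An/Defs".
-/

set_option autoImplicit false
open MeasureTheory Filter Topology Set Metric
open scoped ContDiff
open Crest.GeometryTopology.CoordMetric
open Crest.MathPhysics.ExteriorData
open Crest.Agent.R238 (HB Ell)

noncomputable section

namespace Crest.Agent.N346.An

variable {n : ℕ}

/-! ### Uniformly bounded smooth families -/

/-- A family of smooth maps all of whose derivatives are bounded on the sets `{N ≤ M}`,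
uniformly in the index. -/
def UB {ι Y F : Type} [NormedAddCommGroup Y] [NormedSpace ℝ Y] [NormedAddCommGroup F]
    [NormedSpace ℝ F] (N : Y → ℝ) (Θ : ι → Y → F) : Prop :=
  (∀ i, ContDiff ℝ ∞ (Θ i)) ∧
    ∀ (k : ℕ) (M : ℝ), ∃ C : ℝ, ∀ i y, N y ≤ M → ‖iteratedFDeriv ℝ k (Θ i) y‖ ≤ C

/-- The same for the derivatives of order `≥ 1` only (example: the identity). -/
def UB1 {ι Y F : Type} [NormedAddCommGroup Y] [NormedSpace ℝ Y] [NormedAddCommGroup F]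
    [NormedSpace ℝ F] (N : Y → ℝ) (Θ : ι → Y → F) : Prop :=
  (∀ i, ContDiff ℝ ∞ (Θ i)) ∧
    ∀ (k : ℕ) (M : ℝ), 1 ≤ k → ∃ C : ℝ, ∀ i y, N y ≤ M → ‖iteratedFDeriv ℝ k (Θ i) y‖ ≤ C

/-- Uniform `C^k` bounds on all of the space, for every `k`. -/
abbrev UC {ι Y F : Type} [NormedAddCommGroup Y] [NormedSpace ℝ Y] [NormedAddCommGroup F]
    [NormedSpace ℝ F] (u : ι → Y → F) : Prop := UB (fun _ => (0 : ℝ)) u

/-! ### States -/

/-- values of `(f, z, df)` -/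
abbrev S0 (n : ℕ) : Type := ℝ × ℝ × (Fin n → ℝ)

/-- values of `(dz, d²f)` -/
abbrev Xi (n : ℕ) : Type := (Fin n → ℝ) × (Fin n → Fin n → ℝ)

/-- point and lower order state -/
abbrev Y0 (n : ℕ) : Type := E n × S0 n

/-- point, lower order state and top order state -/
abbrev Y1 (n : ℕ) : Type := Y0 n × Xi n

/-- size of the state -/
def N0 (y : Y0 n) : ℝ := ‖y.2‖

/-- size of the full state -/
def N1 (y : Y1 n) : ℝ := max ‖y.1.2‖ ‖y.2‖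

/-- `(x, f, z, df)` -/
def st (f z : E n → ℝ) (x : E n) : Y0 n := (x, f x, z x, fun i => pderiv i f x)

/-- `(dz, d²f)` -/
def xi (f z : E n → ℝ) (x : E n) : Xi n :=
  (fun i => pderiv i z x, fun i j => pderiv i (pderiv j f) x)

/-- Families of polynomials of degree `≤ d` in the top order state, with `UB` coefficients. -/
inductive Pol {ι : Type} {n : ℕ} : ℕ → (ι → Y1 n → ℝ) → Prop
  | coef {c : ι → Y0 n → ℝ} : UB N0 c → Pol 0 (fun i y => c i y.1)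
  | var1 (k : Fin n) : Pol 1 (fun _ y => y.2.1 k)
  | var2 (k l : Fin n) : Pol 1 (fun _ y => y.2.2 k l)
  | add {d : ℕ} {F G : ι → Y1 n → ℝ} : Pol d F → Pol d G → Pol d (fun i y => F i y + G i y)
  | mul {d e : ℕ} {F G : ι → Y1 n → ℝ} :
      Pol d F → Pol e G → Pol (d + e) (fun i y => F i y * G i y)
  | mono {d : ℕ} {F : ι → Y1 n → ℝ} : Pol d F → Pol (d + 1) F

/-! ### The system -/

/-- `A : d²u` -/
def aD2 (A : E n → Matrix (Fin n) (Fin n) ℝ) (u : E n → ℝ) (x : E n) : ℝ :=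
  ∑ i, ∑ j, A x i j * pderiv i (pderiv j u) x

/-- coefficients of a triangular system -/
structure Sys (n : ℕ) where
  a1 : Y0 n → Matrix (Fin n) (Fin n) ℝ
  b1 : Y0 n → Fin n → ℝ
  c1 : Y0 n → ℝ
  a2 : Y0 n → Matrix (Fin n) (Fin n) ℝ
  F2 : Y1 n → ℝ

/-- smooth solutions -/
structure Sys.Sol (S : Sys n) (f z : E n → ℝ) : Prop where
  sf : ContDiff ℝ ∞ f
  sz : ContDiff ℝ ∞ z
  e1 : ∀ x, aD2 (fun y => S.a1 (st f z y)) f x
    = S.c1 (st f z x) + ∑ i, S.b1 (st f z x) i * pderiv i z x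
  e2 : ∀ x, aD2 (fun y => S.a2 (st f z y)) z x = S.F2 (st f z x, xi f z x)

/-- uniformly admissible families of systems -/
structure Adm {ι : Type} (S : ι → Sys n) : Prop where
  a1 : ∀ k l, UB N0 fun i y => (S i).a1 y k l
  b1 : ∀ k, UB N0 fun i y => (S i).b1 y k
  c1 : UB N0 fun i y => (S i).c1 y
  a2 : ∀ k l, UB N0 fun i y => (S i).a2 y k l
  F2 : Pol 2 fun i y => (S i).F2 y
  ell : ∀ M : ℝ, ∃ lo hi : ℝ, 0 < lo ∧ lo ≤ hi ∧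
    ∀ i y, N0 y ≤ M → Ell lo hi ((S i).a1 y) ∧ Ell lo hi ((S i).a2 y)

/-- `|dz|²` -/
def gsq (z : E n → ℝ) (x : E n) : ℝ := ∑ i, pderiv i z x ^ 2

/-- energy density `|d²f|² + |dz|²` -/
def en (f z : E n → ℝ) (x : E n) : ℝ := (∑ i, ∑ j, pderiv i (pderiv j f) x ^ 2) + gsq z x

/-- What the geometry has to supply for the regularity theorem. -/
structure RegHyp {ι : Type} (S : ι → Sys n) (f z : ι → E n → ℝ) : Prop where
  sol : ∀ i, (S i).Sol (f i) (z i)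
  /-- each single solution has bounded derivatives (e.g. it is periodic) -/
  fin : ∀ i (k : ℕ), ∃ B : ℝ, ∀ x,
    ‖iteratedFDeriv ℝ k (f i) x‖ ≤ B ∧ ‖iteratedFDeriv ℝ k (z i) x‖ ≤ B
  bdd : ∃ M : ℝ, ∀ i x, N0 (st (f i) (z i) x) ≤ M
  str : ∃ (c C : ℝ) (VE VG : ι → VectorField n) (ρ : ι → Y0 n → ℝ)
      (W1 W2 : ι → Y0 n → Fin n → ℝ), 0 < c ∧ UB N0 ρ ∧ (∀ i y, 0 ≤ ρ i y) ∧
    (∀ k, UB N0 fun i y => W1 i y k) ∧ (∀ k, UB N0 fun i y => W2 i y k) ∧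
    (∀ i k, ContDiff ℝ 1 fun x => VE i x k) ∧ (∀ i k, ContDiff ℝ 1 fun x => VG i x k) ∧
    ∀ i x, c * en (f i) (z i) x - C ≤ divE (VE i) x ∧
      divE (VG i) x ≤ C - c * en (f i) (z i) x ∧
      c * gsq (z i) x - C ≤ ∑ k, VG i x k * pderiv k (z i) x ∧
      (∀ k, |VG i x k| ≤ C * (1 + √(gsq (z i) x))) ∧
      ∀ k, |VE i x k - ρ i (st (f i) (z i) x) * VG i x k
        - ∑ j, (W1 i (st (f i) (z i) x) j * pderiv j (fun y => W2 i (st (f i) (z i) y) k) x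
          - W1 i (st (f i) (z i) x) k * pderiv j (fun y => W2 i (st (f i) (z i) y) j) x)| ≤ C

/-- **REG**: uniform `C^k` bounds. -/
def RegStmt : Prop := ∀ (n : ℕ), 3 ≤ n → ∀ (ι : Type) (S : ι → Sys n) (f z : ι → E n → ℝ),
  Adm S → RegHyp S f z → UC f ∧ UC z

/-! ### Existence on a torus -/

/-- `L`-periodic in every coordinate -/
def Per {α : Type} (L : ℝ) (u : E n → α) : Prop :=
  ∀ x (j : Fin n), u (x + EuclideanSpace.single j L) = u x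

/-- periodic coefficients -/
structure Sys.Per (L : ℝ) (S : Sys n) : Prop where
  a1 : ∀ s, An.Per L fun x => S.a1 (x, s)
  b1 : ∀ s, An.Per L fun x => S.b1 (x, s)
  c1 : ∀ s, An.Per L fun x => S.c1 (x, s)
  a2 : ∀ s, An.Per L fun x => S.a2 (x, s)
  F2 : ∀ s ξ, An.Per L fun x => S.F2 ((x, s), ξ)

/-- continuity in the homotopy parameter, state by state -/
structure SysCont (S : ℝ → Sys n) : Prop where
  a1 : ∀ y k l, ContinuousOn (fun t => (S t).a1 y k l) (Icc 0 1)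
  b1 : ∀ y k, ContinuousOn (fun t => (S t).b1 y k) (Icc 0 1)
  c1 : ∀ y, ContinuousOn (fun t => (S t).c1 y) (Icc 0 1)
  a2 : ∀ y k l, ContinuousOn (fun t => (S t).a2 y k l) (Icc 0 1)
  F2 : ∀ y, ContinuousOn (fun t => (S t).F2 y) (Icc 0 1)

/-- a priori bound of periodic smooth solutions in `C² × C¹` -/
def APri (L : ℝ) (S : ℝ → Sys n) : Prop := ∃ M : ℝ, ∀ t ∈ Icc (0 : ℝ) 1, ∀ f z : E n → ℝ,
  (S t).Sol f z → Per L f → Per L z → ∀ x, N1 (st f z x, xi f z x) ≤ M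

/-- **EX**: Leray-Schauder; the homotopy starts at `a1 : d²f = f`, `a2 : d²z = z`. -/
def ExStmt : Prop := ∀ (n : ℕ) (L : ℝ), 0 < L → ∀ S : ℝ → Sys n,
  Adm (fun t : Icc (0 : ℝ) 1 => S t) → (∀ t ∈ Icc (0 : ℝ) 1, (S t).Per L) → SysCont S →
  (∀ y, (S 0).c1 y = y.2.1) → (∀ y k, (S 0).b1 y k = 0) → (∀ y, (S 0).F2 y = y.1.2.2.1) →
  APri L S → ∃ f z : E n → ℝ, (S 1).Sol f z ∧ Per L f ∧ Per L z

/-- the Schaefer stage -/
def Sys.sch (S : Sys n) (s : ℝ) : Sys n where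
  a1 := S.a1
  b1 := fun y k => s * S.b1 y k
  c1 := fun y => (1 - s) * y.2.1 + s * S.c1 y
  a2 := S.a2
  F2 := fun y => (1 - s) * y.1.2.2.1 + s * S.F2 y

/-- **EX2**: homotopy plus Schaefer stage at `t = 0`. -/
def Ex2Stmt : Prop := ∀ (n : ℕ) (L : ℝ), 0 < L → ∀ S : ℝ → Sys n,
  Adm (fun t : Icc (0 : ℝ) 1 => S t) → (∀ t ∈ Icc (0 : ℝ) 1, (S t).Per L) → SysCont S →
  APri L S → APri L (S 0).sch → ∃ f z : E n → ℝ, (S 1).Sol f z ∧ Per L f ∧ Per L z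

/-- Periodisation maps. -/
def PerStmt : Prop := ∀ n : ℕ, ∃ π : ℕ → E n → E n, UB1 (fun _ => (0 : ℝ)) π ∧
  ∀ m : ℕ, Per (8 * (m + 1 : ℝ)) (π m) ∧ ∀ x, ‖x‖ ≤ m + 1 → π m x = x


/-! ### Limits and decay -/

/-- **LIM**: smooth Arzela-Ascoli. -/
def LimStmt : Prop := ∀ (n : ℕ) (F : Type) [NormedAddCommGroup F] [NormedSpace ℝ F]
  [FiniteDimensional ℝ F] (u : ℕ → E n → F), UC u →
  ∃ (φ : ℕ → ℕ) (v : E n → F), StrictMono φ ∧ ContDiff ℝ ∞ v ∧ ∀ k : ℕ,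
    TendstoLocallyUniformly (fun j => iteratedFDeriv ℝ k (u (φ j))) (iteratedFDeriv ℝ k v) atTop

/-- Limits of solutions of systems which stabilise at every point. -/
def LimSolStmt : Prop := ∀ (n : ℕ) (S : ℕ → Sys n) (T : Sys n) (f z : ℕ → E n → ℝ),
  Adm (fun _ : Unit => T) → (∀ j, (S j).Sol (f j) (z j)) → UC f → UC z →
  (∀ x : E n, ∀ᶠ j in atTop, ∀ s, (S j).a1 (x, s) = T.a1 (x, s) ∧ (S j).b1 (x, s) = T.b1 (x, s) ∧
    (S j).c1 (x, s) = T.c1 (x, s) ∧ (S j).a2 (x, s) = T.a2 (x, s) ∧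
    ∀ ξ, (S j).F2 ((x, s), ξ) = T.F2 ((x, s), ξ)) →
  ∃ (φ : ℕ → ℕ) (f0 z0 : E n → ℝ), StrictMono φ ∧ T.Sol f0 z0 ∧ ∀ k : ℕ,
    TendstoLocallyUniformly (fun j => iteratedFDeriv ℝ k (f (φ j))) (iteratedFDeriv ℝ k f0) atTop ∧
    TendstoLocallyUniformly (fun j => iteratedFDeriv ℝ k (z (φ j))) (iteratedFDeriv ℝ k z0) atTop



/-! ### Linear theory on `ℝⁿ` -/

/-- global `C^{2,a}` bound -/
def H2 (a M : ℝ) (u : E n → ℝ) : Prop :=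
  HB a M u ∧ (∀ i, HB a M (pderiv i u)) ∧ ∀ i j, HB a M (pderiv i (pderiv j u))


/-- global Schauder estimate; the Hessian is only assumed to be locally Hölder -/
def GSchStmt : Prop := ∀ (n : ℕ) (a lo hi M : ℝ), 0 < a → a < 1 → 0 < lo → lo ≤ hi →
  ∃ C : ℝ, 0 < C ∧ ∀ (A : E n → Matrix (Fin n) (Fin n) ℝ) (u : E n → ℝ) (N S : ℝ),
    (∀ x, Ell lo hi (A x)) → (∀ i j, HB a M fun x => A x i j) → ContDiff ℝ 2 u →
    (ContDiff ℝ 3 u ∨ ∃ V, H2 a V u) → HB a N (aD2 A u) → (∀ x, |u x| ≤ S) →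
    H2 a (C * (N + S)) u


/-- solvability of `A : d²u - u = F` -/
def SolveStmt : Prop := ∀ (n : ℕ) (a lo hi M N : ℝ), 0 < a → a < 1 → 0 < lo → lo ≤ hi →
  ∀ (A : E n → Matrix (Fin n) (Fin n) ℝ) (F : E n → ℝ), (∀ x, Ell lo hi (A x)) →
    (∀ i j, HB a M fun x => A x i j) → HB a N F →
    ∃ (u : E n → ℝ) (V : ℝ), ContDiff ℝ 2 u ∧ H2 a V u ∧ ∀ x, aD2 A u x - u x = F x

/-! ### The steps of the regularity theorem -/

/-- distance of `(z, df)` from the constant state `(zb, pb)` -/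
def osc (f z : E n → ℝ) (zb : ℝ) (pb : Fin n → ℝ) (x : E n) : ℝ :=
  √((z x - zb) ^ 2 + ∑ i, (pderiv i f x - pb i) ^ 2)

/-- Pointwise structure of one solution: `M` bounds the states, `K` and `c` are constants. -/
structure Str (M K c : ℝ) (f z : E n → ℝ) : Prop where
  sf : ContDiff ℝ ∞ f
  sz : ContDiff ℝ ∞ z
  bz : ∀ x, |z x| ≤ M
  bf : ∀ x i, |pderiv i f x| ≤ M
  cacc : ∀ (x0 : E n) (zb : ℝ) (pb : Fin n → ℝ), |zb| ≤ M → (∀ i, |pb i| ≤ M) →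
    ∃ V : VectorField n, (∀ k, ContDiff ℝ 1 fun x => V x k) ∧ ∀ x,
      c * en f z x - K ≤ divE V x ∧
      ∀ k, |V x k| ≤ K * (1 + (‖x - x0‖ + osc f z zb pb x) * (1 + √(en f z x)))
  sup : ∃ V : VectorField n, (∀ k, ContDiff ℝ 1 fun x => V x k) ∧ ∀ x,
      divE V x ≤ K - c * en f z x ∧ c * gsq z x - K ≤ ∑ k, V x k * pderiv k z x ∧
      ∀ k, |V x k| ≤ K * (1 + √(gsq z x))
  frz : ∀ (x0 : E n) (zb : ℝ) (pb : Fin n → ℝ), |zb| ≤ M → (∀ i, |pb i| ≤ M) →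
    ∃ (A1 A2 : Matrix (Fin n) (Fin n) ℝ) (b : Fin n → ℝ) (G : VectorField n),
      Ell c K A1 ∧ Ell c K A2 ∧ (∀ i, |b i| ≤ K) ∧ (∀ k, ContDiff ℝ 1 fun x => G x k) ∧ ∀ x,
      |aD2 (fun _ => A2) z x - divE G x| ≤ K * (1 + en f z x) ∧
      (∀ k, |G x k| ≤ K * ((‖x - x0‖ + osc f z zb pb x) * √(en f z x))) ∧
      |aD2 (fun _ => A1) f x - ∑ i, b i * pderiv i z x|
        ≤ K * (1 + (‖x - x0‖ + osc f z zb pb x) * √(en f z x))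

/-- scaled energy -/
def sE (f z : E n → ℝ) (x0 : E n) (r : ℝ) : ℝ := r ^ 2 * (∫ x in ball x0 r, en f z x) / r ^ n

/-- excess -/
def sX (f z : E n → ℝ) (zb : ℝ) (pb : Fin n → ℝ) (x0 : E n) (r : ℝ) : ℝ :=
  (∫ x in ball x0 r, osc f z zb pb x ^ 2) / r ^ n

/-- R0: freezing the coefficients. -/
def FreezeStmt : Prop := ∀ (n : ℕ) (ι : Type) (S : ι → Sys n) (f z : ι → E n → ℝ),
  Adm S → RegHyp S f z → ∃ M K c : ℝ, 0 < c ∧ c ≤ K ∧ ∀ i, Str M K c (f i) (z i)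

/-- R1: Caccioppoli inequality. -/
def CaccStmt : Prop := ∀ (n : ℕ) (M K c : ℝ), 0 < c → c ≤ K → ∃ C : ℝ, 0 < C ∧
  ∀ f z : E n → ℝ, Str M K c f z → ∀ (x0 : E n) (zb : ℝ) (pb : Fin n → ℝ), |zb| ≤ M →
    (∀ i, |pb i| ≤ M) → ∀ r, 0 < r → r ≤ 1 → sE f z x0 r ≤ C * (sX f z zb pb x0 (2 * r) + r)

/-- R2: small energy at a uniform scale. -/
def SmallStmt : Prop := ∀ (n : ℕ), 3 ≤ n → ∀ M K c : ℝ, 0 < c → c ≤ K → ∀ ε > 0, ∀ r1 > 0,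
  ∃ r0 > 0, ∀ f z : E n → ℝ, Str M K c f z → ∀ x0 : E n,
    ∃ r, r0 ≤ r ∧ r ≤ r1 ∧ sE f z x0 r ≤ ε

/-- `L² → C^{2,a}` estimate for constant coefficients. -/
def L2SchStmt : Prop := ∀ (n : ℕ), 3 ≤ n → ∀ a lo hi R : ℝ, 0 < a → a < 1 → 0 < lo → lo ≤ hi →
  0 < R → R ≤ 1 → ∃ C : ℝ, 0 < C ∧ ∀ (A : Matrix (Fin n) (Fin n) ℝ) (u : E n → ℝ) (N S : ℝ),
    Ell lo hi A → ContDiff ℝ 3 u → 0 ≤ S →
    (∀ x ∈ closedBall (0 : E n) R, |aD2 (fun _ => A) u x| ≤ N) →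
    (∀ x ∈ closedBall (0 : E n) R, ∀ y ∈ closedBall (0 : E n) R,
      |aD2 (fun _ => A) u x - aD2 (fun _ => A) u y| ≤ N * ‖x - y‖ ^ a) →
    (∫ x in ball (0 : E n) R, u x ^ 2) ≤ S ^ 2 →
    ∀ x ∈ closedBall (0 : E n) (R / 8), (∀ i, |pderiv i u x| ≤ C * (N + S)) ∧
      ∀ i j, |pderiv i (pderiv j u) x| ≤ C * (N + S)

/-- R3: excess decay. -/
def ExcessStmt : Prop := ∀ (n : ℕ), 3 ≤ n → ∀ M K c : ℝ, 0 < c → c ≤ K → ∃ C : ℝ, 0 < C ∧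
  ∀ θ : ℝ, 0 < θ → θ ≤ 1 / 128 → ∃ Cθ : ℝ, 0 < Cθ ∧ ∀ f z : E n → ℝ, Str M K c f z →
    ∀ (x0 : E n) (r : ℝ), 0 < r → r ≤ 1 → ∃ (zb : ℝ) (pb : Fin n → ℝ), |zb| ≤ M ∧
      (∀ i, |pb i| ≤ M) ∧
      sX f z zb pb x0 (θ * r) ≤ C * θ ^ 2 * sE f z x0 r + Cθ * (sE f z x0 r ^ 2 + r ^ 2)

/-- Morrey's lemma. -/
def MorreyStmt : Prop := ∀ (n : ℕ) (β K D r0 : ℝ), 0 < β → β < 1 → 0 < r0 → ∃ K' : ℝ,
  ∀ u : E n → ℝ, ContDiff ℝ 1 u → (∀ x, |u x| ≤ K) →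
    (∀ x0 r, 0 < r → r ≤ r0 → r ^ 2 * (∫ x in ball x0 r, gsq u x) / r ^ n ≤ D * r ^ (2 * β)) →
    HB β K' u

/-- R1-R3 together: `(z, df)` is uniformly Hölder. -/
def HolStmt : Prop := ∀ (n : ℕ), 3 ≤ n → ∀ M K c : ℝ, 0 < c → c ≤ K → ∃ β K' : ℝ, 0 < β ∧ β < 1 ∧
  ∀ f z : E n → ℝ, Str M K c f z → HB β K' z ∧ ∀ i, HB β K' (pderiv i f)

/-- The iteration. -/
def IterStmt : Prop := CaccStmt → SmallStmt → ExcessStmt → MorreyStmt → HolStmt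

/-- R4: from `C^β` to `C^{2,β}`. -/
def GradStmt : Prop := ∀ (n : ℕ) (ι : Type) (S : ι → Sys n) (f z : ι → E n → ℝ),
  Adm S → RegHyp S f z → ∀ β K : ℝ, 0 < β → β < 1 →
  (∀ i, HB β K (z i) ∧ ∀ k, HB β K (pderiv k (f i))) →
  ∃ K' : ℝ, ∀ i, H2 β K' (f i) ∧ H2 β K' (z i)

/-- R5: bootstrap. -/
def BootStmt : Prop := ∀ (n : ℕ) (ι : Type) (S : ι → Sys n) (f z : ι → E n → ℝ),
  Adm S → (∀ i, (S i).Sol (f i) (z i)) → ∀ β K : ℝ, 0 < β → β < 1 →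
  (∀ i, H2 β K (f i) ∧ H2 β K (z i)) → UC f ∧ UC z

/-- assembly of the regularity theorem -/
theorem reg_of (h0 : FreezeStmt) (h1 : HolStmt) (h2 : GradStmt) (h3 : BootStmt) : RegStmt := by
  intro n hn ι S f z hA hR
  obtain ⟨M, K, c, hc, hcK, hS⟩ := h0 n ι S f z hA hR
  obtain ⟨β, K', hβ, hβ1, hH⟩ := h1 n hn M K c hc hcK
  obtain ⟨K'', hG⟩ := h2 n ι S f z hA hR β K' hβ hβ1 fun i => hH _ _ (hS i)
  exact h3 n ι S f z hA hR.sol β K'' hβ hβ1 hG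

end Crest.Agent.N346.An

end
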