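import Crest.Agent.N346.An.Excess_Mg
import Crest.Agent.N346.An.Small
import Crest.Agent.N346.Br.Cont_Mg
import Crest.Agent.N346.An.Freeze
import Crest.Agent.N346.An.Ex

-- ▼ part N346/An/Hol
section

/-!
Row 346, An: the Hölder estimate (helper53).
-/

set_option autoImplicit false

namespace Crest.Agent.N346.An

theorem excessS : ExcessStmt := excess poin l2Sch

theorem hol : HolStmt := iter cacc small excessS morrey

end Crest.Agent.N346.An
end

-- ▼ part N346/An/Main

/-!
Row 346, abstract analysis (helper53): the main theorems.
`reg : RegStmt`, `ex : ExStmt`, `ex2' : Ex2Stmt`, `limSol' : LimSolStmt`, `lim' : LimStmt`,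
`per : PerStmt`, `perFin : PerFinStmt`, `decay : DecayStmt`, `landau : LandauStmt`.
-/

namespace Crest.Agent.N346.An

theorem reg : RegStmt := reg_of freeze hol (grad gSch) (boot gSch)


end Crest.Agent.N346.An
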