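import Crest.Agent.N346.An.Small
import Crest.Agent.N346.An.Defs
import Crest.Agent.N346.Basic
import Crest.Agent.R238.GapMol
import Crest.Agent.R236.Poinc
import Crest.Agent.N346.Mat

-- ▼ part N346/An/Cacc
section

/-! Row 346, An-D (helper95): `cacc : CaccStmt` and `iter : IterStmt`. -/

set_option autoImplicit false
open MeasureTheory Filter Topology Set Metric InnerProductSpace
open scoped ContDiff RealInnerProductSpace Gradient
open Crest.GeometryTopology.CoordMetric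
open Crest.MathPhysics.ExteriorData
open Crest.Agent.R202.Moser
open Crest.Agent.R238 (HB)

noncomputable section

namespace Crest.Agent.N346.An

variable {n : ℕ}

namespace Sm

/-- cut-off functions around any centre -/
theorem cutoff (n : ℕ) : ∃ C : ℝ, 0 < C ∧ ∀ (x0 : E n) (s' s : ℝ), 0 < s' → s' < s →
    ∃ η : E n → ℝ, ContDiff ℝ 1 η ∧ HasCompactSupport η ∧
      (∀ x, x ∉ closedBall x0 s → η x = 0 ∧ ∀ k, pderiv k η x = 0) ∧
      (∀ x ∈ closedBall x0 s', η x = 1) ∧ (∀ x, 0 ≤ η x ∧ η x ≤ 1) ∧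
      ∀ x k, |pderiv k η x| ≤ C / (s - s') := by
  obtain ⟨C, hC, hcut⟩ := exists_cutoff (n := n)
  refine ⟨C, hC, fun x0 s' s hs' hs => ?_⟩
  obtain ⟨η, hη1, hηc, hηs, hη1', hη0, hηle, hηg⟩ := hcut s' s hs' hs
  have hpd : ∀ x k, pderiv k (fun y => η (y - x0)) x = pderiv k η (x - x0) := fun x k => by
    simp only [pderiv, fderiv_comp_sub]
  have hout : ∀ x, x ∉ closedBall x0 s → x - x0 ∉ tsupport η := fun x hx h =>
    hx (by simpa [dist_eq_norm] using hηs h)
  have h0 : ∀ x, x ∉ closedBall x0 s → η (x - x0) = 0 := fun x hx =>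
    image_eq_zero_of_notMem_tsupport (hout x hx)
  refine ⟨fun y => η (y - x0), hη1.comp (contDiff_id.sub contDiff_const),
    .intro (isCompact_closedBall x0 s) h0, fun x hx => ⟨h0 x hx, fun k => ?_⟩,
    fun x hx => hη1' _ (by simpa [dist_eq_norm] using hx),
    fun x => ⟨hη0 _, hηle _⟩, fun x k => ?_⟩
  · rw [hpd, Bs.pd_of_notMem (hout x hx)]
  · rw [hpd]
    exact (Bs.abs_pd_le _ _ _).trans (by rw [← norm_gradient]; exact hηg _)

theorem vol_ball (x0 : E n) {r : ℝ} (hr : 0 < r) :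
    volume.real (ball x0 r) = r ^ n * volume.real (ball (0 : E n) 1) := by
  rw [measureReal_def, Measure.addHaar_ball_of_pos _ x0 hr, ENNReal.toReal_mul,
    ENNReal.toReal_ofReal (by positivity), finrank_euclideanSpace_fin, measureReal_def]

theorem intOn_ball {g : E n → ℝ} (hg : Continuous g) (x0 : E n) (r : ℝ) :
    IntegrableOn g (ball x0 r) :=
  (hg.continuousOn.integrableOn_compact (isCompact_closedBall x0 r)).mono_set ball_subset_closedBall

theorem continuous_osc {f z : E n → ℝ} (hf : ContDiff ℝ ∞ f) (hz : ContDiff ℝ ∞ z) (zb : ℝ)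
    (pb : Fin n → ℝ) : Continuous (osc f z zb pb) :=
  (((hz.continuous.sub continuous_const).pow 2).add (continuous_finsetSum _ fun i _ =>
    ((Bs.contDiff_pd hf i).continuous.sub continuous_const).pow 2)).sqrt

theorem sE_nonneg (f z : E n → ℝ) (x0 : E n) {r : ℝ} (hr : 0 < r) : 0 ≤ sE f z x0 r :=
  div_nonneg (mul_nonneg (sq_nonneg _) (integral_nonneg fun x => en_nn f z x)) (by positivity)

theorem cacc_pt {c D r o s η : ℝ} (hc : 0 < c) (hD : 0 ≤ D) (hr : 0 < r) (hr1 : r ≤ 1)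
    (hη : 0 ≤ η) (hη1 : η ≤ 1) (ho : 0 ≤ o) :
    η * (D / r) * (1 + (2 * r + o) * (1 + s)) ≤
      c / 2 * (η ^ 2 * s ^ 2) + (4 * D + 4 * D ^ 2 / c) / r + (D + D ^ 2 / c) / r ^ 2 * o ^ 2 := by
  set t := o / r with ht
  have ht0 : 0 ≤ t := by positivity
  have hi : 1 ≤ r⁻¹ := one_le_inv₀ hr |>.2 hr1
  have e1 : η * (D / r) * (1 + (2 * r + o) * (1 + s)) =
      η * D * r⁻¹ + η * D * (2 + t) + η * s * (D * (2 + t)) := by rw [ht]; field_simp; ring
  have e2 : (D + D ^ 2 / c) / r ^ 2 * o ^ 2 = (D + D ^ 2 / c) * t ^ 2 := by rw [ht]; field_simp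
  have e3 : η * s * (D * (2 + t)) ≤ c / 2 * (η ^ 2 * s ^ 2) + D ^ 2 / c * (4 + t ^ 2) := by
    have h1 : c / 2 * (η ^ 2 * s ^ 2) + D ^ 2 / c * (4 + t ^ 2) - η * s * (D * (2 + t)) =
        c / 2 * (η * s - D * (2 + t) / c) ^ 2 + D ^ 2 / c / 2 * (2 - t) ^ 2 := by field_simp; ring
    have h2 : 0 ≤ c / 2 * (η * s - D * (2 + t) / c) ^ 2 + D ^ 2 / c / 2 * (2 - t) ^ 2 := by
      positivity
    linarith
  have e4 : η * D * r⁻¹ ≤ D * r⁻¹ := by
    have := mul_le_mul_of_nonneg_right hη1 (by positivity : 0 ≤ D * r⁻¹); nlinarith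
  have e5 : η * D * (2 + t) ≤ D * (3 + t ^ 2) := by
    have := mul_le_mul_of_nonneg_right hη1 (by positivity : 0 ≤ D * (2 + t))
    nlinarith [mul_nonneg hD (by nlinarith [sq_nonneg (t - 1 / 2)] : 0 ≤ t ^ 2 - t + 1)]
  have e6 : 3 * D + 4 * (D ^ 2 / c) ≤ (3 * D + 4 * (D ^ 2 / c)) * r⁻¹ :=
    le_mul_of_one_le_right (by positivity) hi
  have e7 : (4 * D + 4 * D ^ 2 / c) / r = D * r⁻¹ + (3 * D + 4 * (D ^ 2 / c)) * r⁻¹ := by ring
  rw [e1, e2, e7]
  nlinarith

end Sm

open Sm in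
theorem cacc : CaccStmt := by
  intro n M K c hc hcK
  have hK : 0 < K := hc.trans_le hcK
  obtain ⟨C0, hC0, hcut⟩ := cutoff n
  set D := 4 * n * C0 * K with hD
  have hD0 : 0 ≤ D := by positivity
  set W := volume.real (ball (0 : E n) 1) with hW
  have hW0 : 0 ≤ W := measureReal_nonneg
  set A := K + (4 * D + 4 * D ^ 2 / c) with hA
  set A' := D + D ^ 2 / c with hA'
  have hA0 : 0 < A := by positivity
  have hA0' : 0 ≤ A' := by positivity
  refine ⟨2 / c * 2 ^ n * (A * W + A' + 1), by positivity, fun f z hS x0 zb pb hzb hpb r hr hr1 => ?_⟩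
  obtain ⟨V, hV, hVs⟩ := hS.cacc x0 zb pb hzb hpb
  obtain ⟨η, hη1, hηc, hη0, hηe, hηb, hηg⟩ := hcut x0 r (3 / 2 * r) hr (by linarith)
  have cen := continuous_en hS.sf hS.sz
  have co := continuous_osc hS.sf hS.sz zb pb
  have hφ : ContDiff ℝ 1 fun x => η x ^ 2 := hη1.pow 2
  have hφc : HasCompactSupport fun x => η x ^ 2 :=
    .intro (isCompact_closedBall x0 (3 / 2 * r)) fun x hx => by simp [(hη0 x hx).1]
  have hpd : ∀ x k, pderiv k (fun x => η x ^ 2) x = 2 * η x * pderiv k η x := fun x k => by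
    rw [Bs.pd_comp (θ := fun s => s ^ 2) (hasDerivAt_pow 2 (η x))
      (hη1.differentiable one_ne_zero x)]
    simp
  have e := Bs.ibp_divE hφ hφc hV
  have cd : Continuous (divE V) := continuous_finsetSum _ fun i _ => Bs.continuous_pd (hV i) i
  have i1 : Integrable fun x => η x ^ 2 * en f z x :=
    (hφ.continuous.mul cen).integrable_of_hasCompactSupport hφc.mul_right
  have i2 : Integrable fun x => η x ^ 2 * divE V x :=
    (hφ.continuous.mul cd).integrable_of_hasCompactSupport hφc.mul_right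
  have i3 : Integrable fun x => ∑ i, pderiv i (fun x => η x ^ 2) x * V x i :=
    integrable_finsetSum _ fun i _ => ((Bs.continuous_pd hφ i).mul
      (hV i).continuous).integrable_of_hasCompactSupport (Bs.hasCompactSupport_pd hφc i).mul_right
  have i4 : IntegrableOn (fun x => A / r + A' / r ^ 2 * osc f z zb pb x ^ 2) (ball x0 (2 * r)) :=
    intOn_ball (continuous_const.add (continuous_const.mul (co.pow 2))) _ _
  have e1 : ∫ x, c / 2 * (η x ^ 2 * en f z x) ≤ ∫ x, ((η x ^ 2 * divE V x +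
      ∑ i, pderiv i (fun x => η x ^ 2) x * V x i) +
      (ball x0 (2 * r)).indicator (fun x => A / r + A' / r ^ 2 * osc f z zb pb x ^ 2) x) := by
    refine integral_mono (i1.const_mul _) ((i2.add i3).add
      ((integrable_indicator_iff measurableSet_ball).2 i4)) fun x => ?_
    by_cases hx : x ∈ ball x0 (2 * r)
    · simp only [indicator_of_mem hx, hpd]
      have ho : 0 ≤ osc f z zb pb x := Real.sqrt_nonneg _
      have h1 := cacc_pt (s := √(en f z x)) hc hD0 hr hr1 (hηb x).1 (hηb x).2 ho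
      rw [Real.sq_sqrt (en_nn f z x)] at h1
      set P := 1 + (2 * r + osc f z zb pb x) * (1 + √(en f z x)) with hP
      have h2 : ∀ i, -(η x * (4 * C0 * K / r) * P) ≤ 2 * η x * pderiv i η x * V x i := fun i => by
        have h3 : |V x i| ≤ K * P := ((hVs x).2 i).trans (by
          have := (mem_ball_iff_norm.1 hx).le
          rw [hP]; gcongr)
        have h4 : |pderiv i η x| ≤ 2 * C0 / r := (hηg x i).trans (le_of_eq (by field_simp; ring))
        have h5 : |pderiv i η x * V x i| ≤ 2 * C0 / r * (K * P) := by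
          rw [abs_mul]; exact mul_le_mul h4 h3 (abs_nonneg _) (by positivity)
        have h6 := mul_le_mul_of_nonneg_left (abs_le.1 h5).1 (hηb x).1
        have h7 : η x * (4 * C0 * K / r) * P = 2 * (η x * (2 * C0 / r * (K * P))) := by ring
        linarith
      have h3 := Finset.sum_le_sum fun i (_ : i ∈ Finset.univ) => h2 i
      rw [Finset.sum_const, Finset.card_univ, Fintype.card_fin, nsmul_eq_mul] at h3
      have h4 : (n : ℝ) * -(η x * (4 * C0 * K / r) * P) = -(η x * (D / r) * P) := by rw [hD]; ring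
      have h5 := mul_le_mul_of_nonneg_left (hVs x).1 (sq_nonneg (η x))
      have h6 : η x ^ 2 * K ≤ K / r := by
        have : η x ^ 2 ≤ 1 := pow_le_one₀ (hηb x).1 (hηb x).2
        rw [le_div_iff₀ hr]
        nlinarith [mul_le_mul this hr1 hr.le zero_le_one]
      have h7 : A / r = K / r + (4 * D + 4 * D ^ 2 / c) / r := by rw [hA]; ring
      nlinarith
    · have hx' := hη0 x fun h => hx (closedBall_subset_ball (by linarith) h)
      simp [indicator_of_notMem hx, hpd, hx'.1]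
  have i23 : Integrable fun x => η x ^ 2 * divE V x +
      ∑ i, pderiv i (fun x => η x ^ 2) x * V x i := i2.add i3
  have fin : IsFiniteMeasure (volume.restrict (ball x0 (2 * r))) :=
    ⟨by simpa using measure_ball_lt_top⟩
  have i5 : Integrable (fun x => A' / r ^ 2 * osc f z zb pb x ^ 2)
      (volume.restrict (ball x0 (2 * r))) := (intOn_ball (co.pow 2) _ _).const_mul _
  rw [integral_add i23 ((integrable_indicator_iff measurableSet_ball).2 i4), integral_add i2 i3, e,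
    neg_add_cancel, zero_add, integral_indicator measurableSet_ball, integral_const_mul,
    integral_add (integrable_const _) i5, setIntegral_const,
    integral_const_mul, vol_ball x0 (by positivity), ← hW, smul_eq_mul] at e1
  have e2 : ∫ x in ball x0 r, en f z x ≤ ∫ x, η x ^ 2 * en f z x := by
    calc _ = ∫ x in ball x0 r, η x ^ 2 * en f z x :=
          setIntegral_congr_fun measurableSet_ball fun x hx => by
            simp [hηe x (ball_subset_closedBall hx)]
      _ ≤ _ := setIntegral_le_integral i1 (Eventually.of_forall fun x =>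
          mul_nonneg (sq_nonneg _) (en_nn f z x))
  set X := ∫ x in ball x0 (2 * r), osc f z zb pb x ^ 2 with hX
  have hX0 : 0 ≤ X := integral_nonneg fun x => sq_nonneg _
  have e3 : sE f z x0 r ≤ 2 / c * 2 ^ n * (A * W * r + A' * (X / (2 * r) ^ n)) := by
    have h1 : ∫ x in ball x0 r, en f z x ≤ 2 / c * ((2 * r) ^ n * W * (A / r) + A' / r ^ 2 * X) := by
      rw [div_mul_eq_mul_div, le_div_iff₀ hc]; nlinarith
    calc sE f z x0 r ≤ r ^ 2 * (2 / c * ((2 * r) ^ n * W * (A / r) + A' / r ^ 2 * X)) / r ^ n := by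
          rw [sE]; gcongr
      _ = _ := by rw [mul_pow]; field_simp
  refine e3.trans ?_
  rw [sX, ← hX, mul_assoc (2 / c * 2 ^ n)]
  refine mul_le_mul_of_nonneg_left ?_ (by positivity)
  have : 0 ≤ X / (2 * r) ^ n := by positivity
  nlinarith [mul_nonneg (mul_nonneg hA0.le hW0) this, mul_nonneg hA0' hr.le]

open Sm in
theorem iter : IterStmt := by
  intro h1 h2 h3 h4 n hn M K c hc hcK
  obtain ⟨C1, hC1, hca⟩ := h1 n M K c hc hcK
  obtain ⟨C, hC, hex⟩ := h3 n hn M K c hc hcK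
  set θ := min (1 / 128) (1 / (8 * C1 * C)) with hθ
  have hθ0 : 0 < θ := by positivity
  have hθ1 : θ ≤ 1 / 128 := min_le_left _ _
  have hθ2 : C1 * C * θ ^ 2 ≤ 1 / 8 := by
    have h : θ ≤ 1 / (8 * C1 * C) := min_le_right _ _
    rw [le_div_iff₀ (by positivity)] at h
    nlinarith [mul_le_mul_of_nonneg_left (by nlinarith : θ ^ 2 ≤ θ) (mul_pos hC1 hC).le]
  obtain ⟨Ct, hCt, hex⟩ := hex θ hθ0 hθ1
  set v := θ / 2 with hv
  have hv0 : 0 < v := by positivity
  have hv1 : v ≤ 1 / 2 := by linarith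
  set B := C1 * (Ct + 1) with hB
  have hB0 : 0 < B := by positivity
  set ε := 1 / (8 * C1 * Ct) with hε
  have hε0 : 0 < ε := by positivity
  obtain ⟨r0, hr0, hsm⟩ := h2 n hn M K c hc hcK ε hε0 (min 1 (ε / (2 * B))) (by positivity)
  have hlv : Real.log v ≤ -Real.log 2 := by
    rw [← Real.log_inv]; exact Real.log_le_log hv0 (by linarith)
  have hl2 : 0 < Real.log 2 := Real.log_pos (by norm_num)
  set β := Real.log 2 / (2 * -Real.log v) with hβ
  have hlv0 : 0 < -Real.log v := by linarith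
  have hβ0 : 0 < β := by positivity
  have hβ1 : β < 1 := by rw [hβ, div_lt_one (by positivity)]; linarith
  have hvβ : v ^ (2 * β) = 1 / 2 := by
    rw [Real.rpow_def_of_pos hv0, show Real.log v * (2 * β) = -Real.log 2 by
      rw [hβ]; field_simp [hlv0.ne, neg_pos.1 hlv0 |>.ne], Real.exp_neg, Real.exp_log two_pos]
    norm_num
  set D := ε + 4 * B with hD
  have hD0 : 0 < D := by positivity
  obtain ⟨K', hK'⟩ := h4 n β M (2 * D / (v ^ n * r0 ^ (2 * β))) r0 hβ0 hβ1 hr0
  refine ⟨β, K', hβ0, hβ1, fun f z hS => ?_⟩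
  have cen := continuous_en hS.sf hS.sz
  have step : ∀ x0 r, 0 < r → r ≤ 1 → sE f z x0 r ≤ ε → sE f z x0 (v * r) ≤ sE f z x0 r / 4 + B * r := by
    intro x0 r hr hr1 hI
    obtain ⟨zb, pb, hzb, hpb, hX⟩ := hex f z hS x0 r hr hr1
    have e1 := hca f z hS x0 zb pb hzb hpb (v * r) (by positivity) (by nlinarith)
    rw [show 2 * (v * r) = θ * r by rw [hv]; ring] at e1
    have hI0 := sE_nonneg f z x0 hr
    set I := sE f z x0 r
    have e2 := mul_le_mul_of_nonneg_left hX hC1.le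
    have e3 := mul_le_mul_of_nonneg_right hθ2 hI0
    have e4 : C1 * Ct * I ^ 2 ≤ I / 8 := by
      rw [hε, le_div_iff₀ (by positivity)] at hI
      nlinarith
    have e5 : C1 * Ct * r ^ 2 ≤ C1 * Ct * r :=
      mul_le_mul_of_nonneg_left (by nlinarith) (by positivity)
    have e6 : C1 * (v * r) ≤ C1 * r := mul_le_mul_of_nonneg_left (by nlinarith) hC1.le
    rw [hB]
    nlinarith
  have decay : ∀ x0 ρ, 0 < ρ → ρ ≤ r0 →
      sE f z x0 ρ ≤ 2 * D / (v ^ n * r0 ^ (2 * β)) * ρ ^ (2 * β) := by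
    intro x0 ρ hρ hρ0
    obtain ⟨r, hr0r, hr1, hI⟩ := hsm f z hS x0
    have hr : 0 < r := hr0.trans_le hr0r
    have hr1' : r ≤ 1 := hr1.trans (min_le_left _ _)
    have hr2 : B * r ≤ ε / 2 := by
      have := hr1.trans (min_le_right _ _)
      rw [le_div_iff₀ (by positivity)] at this
      linarith
    have ind : ∀ k : ℕ, sE f z x0 (v ^ k * r) ≤ ε ∧ sE f z x0 (v ^ k * r) ≤ D * (1 / 2) ^ k := by
      intro k
      induction k with
      | zero => simp only [pow_zero, one_mul, mul_one]; exact ⟨hI, by linarith⟩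
      | succ k ih =>
        have hp : v ^ k ≤ (1 / 2) ^ k := pow_le_pow_left₀ hv0.le hv1 k
        have hp1 : v ^ k ≤ 1 := pow_le_one₀ hv0.le (by linarith)
        have hp0 : 0 < v ^ k := by positivity
        have := step x0 (v ^ k * r) (by positivity) (by nlinarith) ih.1
        rw [show v * (v ^ k * r) = v ^ (k + 1) * r by ring] at this
        have a1 : B * (v ^ k * r) ≤ B * r := by gcongr; nlinarith
        have a2 : B * (v ^ k * r) ≤ B * (1 / 2) ^ k := by gcongr; nlinarith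
        have a3 : 4 * B * (1 / 2) ^ k ≤ D * (1 / 2) ^ k := by gcongr; linarith
        refine ⟨by linarith [ih.1], ?_⟩
        rw [pow_succ (1 / 2 : ℝ)]
        linarith [ih.2]
    obtain ⟨k, hk1, hk2⟩ := exists_nat_pow_near_of_lt_one (x := ρ / r) (y := v) (by positivity)
      (by rw [div_le_one hr]; linarith) hv0 (by linarith)
    rw [lt_div_iff₀ hr] at hk1
    rw [div_le_iff₀ hr] at hk2
    have e1 : sE f z x0 ρ ≤ sE f z x0 (v ^ k * r) / v ^ n := by
      rw [sE, sE, div_div, ← mul_pow]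
      refine div_le_div₀ (mul_nonneg (sq_nonneg _) (integral_nonneg fun x => en_nn f z x))
        (mul_le_mul (by gcongr) (setIntegral_mono_set (intOn_ball cen _ _)
          (Eventually.of_forall fun x => en_nn f z x) (ball_subset_ball hk2).eventuallyLE)
          (integral_nonneg fun x => en_nn f z x) (sq_nonneg _)) (by positivity) ?_
      refine pow_le_pow_left₀ (by positivity) ?_ n
      rw [pow_succ] at hk1
      linarith
    have e2 : (1 / 2 : ℝ) ^ (k + 1) * r0 ^ (2 * β) ≤ ρ ^ (2 * β) := by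
      rw [← hvβ, ← Real.rpow_natCast, ← Real.rpow_mul hv0.le, mul_comm (2 * β),
        Real.rpow_mul hv0.le, Real.rpow_natCast, ← Real.mul_rpow (by positivity) hr0.le]
      refine Real.rpow_le_rpow (by positivity) ?_ (by positivity)
      exact (mul_le_mul_of_nonneg_left hr0r (by positivity)).trans hk1.le
    have hr0β : 0 < r0 ^ (2 * β) := by positivity
    calc sE f z x0 ρ ≤ D * (1 / 2) ^ k / v ^ n := e1.trans (by gcongr; exact (ind k).2)
      _ = 2 * D / (v ^ n * r0 ^ (2 * β)) * ((1 / 2) ^ (k + 1) * r0 ^ (2 * β)) := by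
          rw [pow_succ]; field_simp
      _ ≤ _ := by gcongr
  have fin : ∀ u : E n → ℝ, ContDiff ℝ ∞ u → (∀ x, |u x| ≤ M) → (∀ x, gsq u x ≤ en f z x) →
      HB β K' u := fun u hu hb hg => by
    refine hK' u (Bs.smooth_one hu) hb fun x0 r hr hr' => le_trans ?_ (decay x0 r hr hr')
    rw [sE]
    have cg : Continuous (gsq u) :=
      continuous_finsetSum _ fun i _ => (Bs.contDiff_pd hu i).continuous.pow 2
    have := setIntegral_mono (intOn_ball cg x0 r) (intOn_ball cen x0 r) hg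
    gcongr
  refine ⟨fin z hS.sz hS.bz fun x => le_add_of_nonneg_left
    (Finset.sum_nonneg fun _ _ => Finset.sum_nonneg fun _ _ => sq_nonneg _),
    fun i => fin _ (Bs.contDiff_pd hS.sf i) (fun x => hS.bf x i) fun x => ?_⟩
  refine le_add_of_le_of_nonneg (Finset.sum_le_sum fun j _ => ?_)
    (Finset.sum_nonneg fun _ _ => sq_nonneg _)
  exact Finset.single_le_sum (f := fun l => pderiv j (pderiv l f) x ^ 2) (fun _ _ => sq_nonneg _)
    (Finset.mem_univ i)

end Crest.Agent.N346.An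

end
end

-- ▼ part N346/An/Mol
section

/-!
Row 346, An: mollifier estimates used in the excess decay (helper53).
-/

set_option autoImplicit false
open MeasureTheory Filter Topology Set Metric
open scoped ContDiff ENNReal
open Crest.GeometryTopology.CoordMetric
open Crest.MathPhysics.ExteriorData
open Crest.Agent.R238.Gap.Mol (Mo)
open Crest.Agent.N346.Bs

noncomputable section

namespace Crest.Agent.N346.An

variable {n : ℕ}

/-- a mollifier of width `σ` whose derivatives of order `≤ 2` are bounded by `W` -/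
structure Kern (σ W : ℝ) (w : E n → ℝ) : Prop where
  sm : ContDiff ℝ ∞ w
  nn : ∀ t, 0 ≤ w t
  one : ∫ t, w t = 1
  supp : ∀ t, σ ≤ ‖t‖ → w t = 0
  b0 : ∀ t, |w t| ≤ W
  b1 : ∀ t, ‖fderiv ℝ w t‖ ≤ W
  b2 : ∀ t k, ‖fderiv ℝ (pderiv k w) t‖ ≤ W

theorem Kern.cs {σ W : ℝ} {w : E n → ℝ} (h : Kern σ W w) : HasCompactSupport w :=
  hasCompactSupport_of_far (R := σ) fun y hy => h.supp y hy.le

theorem Kern.cont {σ W : ℝ} {w : E n → ℝ} (h : Kern σ W w) : Continuous w := h.sm.continuous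

theorem Kern.int {σ W : ℝ} {w : E n → ℝ} (h : Kern σ W w) : Integrable w :=
  h.cont.integrable_of_hasCompactSupport h.cs

theorem Kern.W_nonneg {σ W : ℝ} {w : E n → ℝ} (h : Kern σ W w) : 0 ≤ W :=
  (abs_nonneg _).trans (h.b0 0)

theorem exists_kern (n : ℕ) {σ : ℝ} (hσ : 0 < σ) : ∃ (W : ℝ) (w : E n → ℝ), Kern σ W w := by
  let b : ContDiffBump (0 : E n) := ⟨σ / 2, σ, by positivity, by linarith⟩
  have hs : ContDiff ℝ ∞ (b.normed volume) := b.contDiff_normed
  have hc : HasCompactSupport (b.normed volume) := b.hasCompactSupport_normed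
  obtain ⟨W0, h0⟩ := hs.continuous.bounded_above_of_compact_support hc
  obtain ⟨W1, h1⟩ := (hs.continuous_fderiv (by simp)).bounded_above_of_compact_support
    (hc.fderiv ℝ)
  have h2 : ∀ k, ∃ W2, ∀ t, ‖fderiv ℝ (pderiv k (b.normed volume)) t‖ ≤ W2 := fun k =>
    ((contDiff_pd hs k).continuous_fderiv (by simp)).bounded_above_of_compact_support
      ((hasCompactSupport_pd hc k).fderiv ℝ)
  choose W2 h2 using h2
  have p0 : 0 ≤ W0 := (norm_nonneg _).trans (h0 0)
  have p1 : 0 ≤ W1 := (norm_nonneg _).trans (h1 0)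
  have p2 : ∀ k, 0 ≤ W2 k := fun k => (norm_nonneg _).trans (h2 k 0)
  have p3 : 0 ≤ ∑ k, W2 k := Finset.sum_nonneg fun k _ => p2 k
  refine ⟨W0 + W1 + ∑ k, W2 k, b.normed volume, hs, fun t => b.nonneg_normed t,
    b.integral_normed, fun t ht => ?_, fun t => ?_, fun t => ?_, fun t k => ?_⟩
  · have : t ∉ Function.support (b.normed volume) := by
      rw [b.support_normed_eq]
      simpa [b] using ht
    simpa using this
  · have := h0 t
    rw [Real.norm_eq_abs] at this
    linarith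
  · linarith [h1 t]
  · have := Finset.single_le_sum (f := W2) (fun k _ => p2 k) (Finset.mem_univ k)
    linarith [h2 k t]

variable {σ W : ℝ} {w : E n → ℝ}

theorem Mo_eq (w h : E n → ℝ) (x : E n) : Mo w h x = ∫ s, w (x - s) * h s := by
  unfold Mo
  rw [← integral_sub_left_eq_self (fun s => w (x - s) * h s) volume x]
  simp

theorem Kern.smooth (hw : Kern σ W w) {h : E n → ℝ} (hh : Continuous h) :
    ContDiff ℝ ∞ (Mo w h) := R238.Gap.Mol.contDiff_Mo hw.sm hw.cs hh

theorem Kern.pd_Mo (hw : Kern σ W w) {h : E n → ℝ} (hh : ContDiff ℝ 1 h) (i : Fin n) :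
    pderiv i (Mo w h) = Mo w (pderiv i h) := by
  funext x
  have h1 := R238.Gap.Mol.Mo_clm hw.cont hw.cs (hh.continuous_fderiv one_ne_zero)
    (ContinuousLinearMap.apply ℝ ℝ (EuclideanSpace.single i (1 : ℝ) : E n)) x
  unfold pderiv
  rw [R238.Gap.Mol.fderiv_Mo hw.cont hw.cs hh]
  exact h1

theorem Kern.abs_Mo_le (hw : Kern σ W w) {h : E n → ℝ} {B : ℝ} (hB : ∀ x, |h x| ≤ B) (x : E n) :
    |Mo w h x| ≤ B := R238.Gap.Mol.norm_Mo_le hw.cont hw.cs hw.nn hw.one (h := h) hB x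

theorem Kern.int_mul (hw : Kern σ W w) {h : E n → ℝ} (hh : Continuous h) (x : E n) :
    Integrable fun t => w t * h (x - t) := R238.Gap.Mol.integrable_int hw.cont hw.cs hh x

theorem Kern.Mo_aD2 (hw : Kern σ W w) {h : E n → ℝ} (hh : ContDiff ℝ ∞ h)
    (A : Matrix (Fin n) (Fin n) ℝ) (x : E n) :
    aD2 (fun _ => A) (Mo w h) x = Mo w (aD2 (fun _ => A) h) x := by
  have c2 : ∀ i j, Continuous (pderiv i (pderiv j h)) := fun i j =>
    (contDiff_pd (contDiff_pd hh j) i).continuous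
  have e : ∀ i j, pderiv i (pderiv j (Mo w h)) = Mo w (pderiv i (pderiv j h)) := fun i j => by
    rw [hw.pd_Mo (smooth_one hh), hw.pd_Mo (smooth_one (contDiff_pd hh j))]
  have i : ∀ i j, Integrable fun t => w t * (A i j * pderiv i (pderiv j h) (x - t)) := fun i j =>
    hw.int_mul (h := fun y => A i j * pderiv i (pderiv j h) y) (continuous_const.mul (c2 i j)) x
  simp only [aD2, e, Mo, smul_eq_mul, Finset.mul_sum]
  rw [integral_finsetSum _ fun k _ => integrable_finsetSum _ fun j _ => i k j]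
  refine Finset.sum_congr rfl fun k _ => ?_
  rw [integral_finsetSum _ fun j _ => i k j]
  refine Finset.sum_congr rfl fun j _ => ?_
  rw [← integral_const_mul]
  exact integral_congr_ae (Eventually.of_forall fun t => by ring)

/-! ### `L²` distance to the mollification -/

theorem gsq_eq (u : E n → ℝ) (x : E n) : gsq u x = ‖fderiv ℝ u x‖ ^ 2 := by
  rw [← sum_pd_sq]
  simp only [gsq, sq]

theorem continuous_gsq {u : E n → ℝ} (hu : ContDiff ℝ 1 u) : Continuous (gsq u) :=
  continuous_finsetSum _ fun i _ => (continuous_pd hu i).pow 2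

theorem intOn_ball {h : E n → ℝ} (hh : Continuous h) (x0 : E n) (r : ℝ) :
    IntegrableOn h (ball x0 r) :=
  (hh.continuousOn.integrableOn_compact (isCompact_closedBall x0 r)).mono_set ball_subset_closedBall

theorem sq_lintegral_le {f : ℝ → ℝ≥0∞} (hf : AEMeasurable f (volume.restrict (Icc (0 : ℝ) 1))) :
    (∫⁻ t in Icc (0 : ℝ) 1, f t) ^ 2 ≤ ∫⁻ t in Icc (0 : ℝ) 1, f t ^ 2 := by
  have h := ENNReal.lintegral_mul_le_Lp_mul_Lq (volume.restrict (Icc (0 : ℝ) 1))
    Real.HolderConjugate.two_two hf (aemeasurable_const (b := (1 : ℝ≥0∞)))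
  simp only [Pi.mul_apply, mul_one, lintegral_const, Measure.restrict_apply,
    MeasurableSet.univ, univ_inter, Real.volume_Icc, sub_zero, ENNReal.ofReal_one,
    ENNReal.rpow_ofNat, one_pow, ENNReal.one_rpow] at h
  calc (∫⁻ t in Icc (0 : ℝ) 1, f t) ^ 2
      ≤ ((∫⁻ t in Icc (0 : ℝ) 1, f t ^ 2) ^ (1 / 2 : ℝ)) ^ 2 := by gcongr
    _ = _ := by
      rw [← ENNReal.rpow_natCast, ← ENNReal.rpow_mul]
      norm_num

/-- translation estimate -/
theorem trans_l2 {u : E n → ℝ} (hu : ContDiff ℝ 1 u) {R : ℝ} (hR : R + σ ≤ 1) {t : E n}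
    (ht : ‖t‖ ≤ σ) :
    ∫⁻ x in ball (0 : E n) R, ‖u x - u (x - t)‖ₑ ^ 2
      ≤ ENNReal.ofReal σ ^ 2 * ∫⁻ x in ball (0 : E n) 1, ‖fderiv ℝ u x‖ₑ ^ 2 := by
  have hm : Measurable fun x => ‖fderiv ℝ u x‖ₑ ^ 2 := (measurable_fderiv ℝ u).enorm.pow_const 2
  have hle : ∀ x : E n, ‖u x - u (x - t)‖ₑ ^ 2 ≤ ENNReal.ofReal σ ^ 2 *
      ∫⁻ s in Icc (0 : ℝ) 1, ‖fderiv ℝ u (x - (1 - s) • t)‖ₑ ^ 2 := by
    intro x
    have h1 := Crest.Agent.R236.Poinc.diff_le isOpen_univ convex_univ hu.contDiffOn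
      (mem_univ (x - t)) (mem_univ x) (d := σ) (by simpa [dist_eq_norm] using ht)
    have e : ∀ s : ℝ, (1 - s) • (x - t) + s • x = x - (1 - s) • t := fun s => by
      simp only [smul_sub, sub_smul, one_smul]
      abel
    simp only [e] at h1
    have h2 : AEMeasurable (fun s : ℝ => ‖fderiv ℝ u (x - (1 - s) • t)‖ₑ)
        (volume.restrict (Icc (0 : ℝ) 1)) :=
      ((measurable_fderiv ℝ u).enorm.comp (by fun_prop)).aemeasurable
    calc ‖u x - u (x - t)‖ₑ ^ 2 ≤ (ENNReal.ofReal σ *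
          ∫⁻ s in Icc (0 : ℝ) 1, ‖fderiv ℝ u (x - (1 - s) • t)‖ₑ) ^ 2 := by gcongr
      _ = ENNReal.ofReal σ ^ 2 *
          (∫⁻ s in Icc (0 : ℝ) 1, ‖fderiv ℝ u (x - (1 - s) • t)‖ₑ) ^ 2 := by rw [mul_pow]
      _ ≤ _ := by
        gcongr
        exact sq_lintegral_le h2
  have hne : ENNReal.ofReal σ ^ 2 ≠ ⊤ := ENNReal.pow_ne_top ENNReal.ofReal_ne_top
  have hsh : ∀ s ∈ Icc (0 : ℝ) 1, ∫⁻ x in ball (0 : E n) R, ‖fderiv ℝ u (x - (1 - s) • t)‖ₑ ^ 2
      ≤ ∫⁻ x in ball (0 : E n) 1, ‖fderiv ℝ u x‖ₑ ^ 2 := by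
    intro s hs
    rw [← lintegral_indicator measurableSet_ball, ← lintegral_indicator measurableSet_ball,
      ← lintegral_sub_right_eq_self
        ((ball (0 : E n) 1).indicator fun x => ‖fderiv ℝ u x‖ₑ ^ 2) ((1 - s) • t)]
    refine lintegral_mono fun x => ?_
    by_cases hx : x ∈ ball (0 : E n) R
    · have h1 : ‖(1 - s) • t‖ ≤ σ := by
        rw [norm_smul, Real.norm_eq_abs, abs_of_nonneg (by linarith [hs.2])]
        nlinarith [norm_nonneg t, hs.1, hs.2]
      have h2 : x - (1 - s) • t ∈ ball (0 : E n) 1 := by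
        rw [mem_ball_zero_iff] at hx ⊢
        linarith [norm_sub_le x ((1 - s) • t)]
      rw [indicator_of_mem hx, indicator_of_mem h2]
    · rw [indicator_of_notMem hx]
      exact zero_le
  calc _ ≤ ∫⁻ x in ball (0 : E n) R, ENNReal.ofReal σ ^ 2 *
        ∫⁻ s in Icc (0 : ℝ) 1, ‖fderiv ℝ u (x - (1 - s) • t)‖ₑ ^ 2 := lintegral_mono hle
    _ = ENNReal.ofReal σ ^ 2 * ∫⁻ s in Icc (0 : ℝ) 1, ∫⁻ x in ball (0 : E n) R,
        ‖fderiv ℝ u (x - (1 - s) • t)‖ₑ ^ 2 := by
      rw [lintegral_const_mul' _ _ hne, lintegral_lintegral_swap]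
      exact (hm.comp (f := fun p : E n × ℝ => p.1 - (1 - p.2) • t) (by fun_prop)).aemeasurable
    _ ≤ ENNReal.ofReal σ ^ 2 * ∫⁻ _ in Icc (0 : ℝ) 1,
        ∫⁻ x in ball (0 : E n) 1, ‖fderiv ℝ u x‖ₑ ^ 2 := by
      exact mul_le_mul_right (setLIntegral_mono' measurableSet_Icc hsh) _
    _ = _ := by simp

theorem Kern.jensen (hw : Kern σ W w) {d : E n → ℝ} (hd : Continuous d) :
    (∫ t, w t * d t) ^ 2 ≤ ∫ t, w t * d t ^ 2 := by
  have i1 : Integrable fun t => w t * d t :=
    (hw.cont.mul hd).integrable_of_hasCompactSupport hw.cs.mul_right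
  have i2 : Integrable fun t => w t * d t ^ 2 :=
    (hw.cont.mul (hd.pow 2)).integrable_of_hasCompactSupport hw.cs.mul_right
  set m := ∫ t, w t * d t with hm
  have h0 : 0 ≤ ∫ t, w t * (d t - m) ^ 2 :=
    integral_nonneg fun t => mul_nonneg (hw.nn t) (sq_nonneg _)
  have e : ∫ t, w t * (d t - m) ^ 2 = (∫ t, w t * d t ^ 2) - 2 * m * m + m ^ 2 * 1 := by
    have i3 : Integrable fun t => w t * d t ^ 2 - 2 * m * (w t * d t) := i2.sub (i1.const_mul _)
    have e1 : ∫ t, w t * (d t - m) ^ 2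
        = ∫ t, (w t * d t ^ 2 - 2 * m * (w t * d t) + m ^ 2 * w t) :=
      integral_congr_ae (Eventually.of_forall fun t => by ring)
    rw [e1, integral_add i3 (hw.int.const_mul _), integral_sub i2 (i1.const_mul _),
      integral_const_mul, integral_const_mul, hw.one]
  nlinarith

theorem enorm_sq (a : ℝ) : ‖a‖ₑ ^ 2 = ENNReal.ofReal (a ^ 2) := by
  rw [← ofReal_norm, ← ENNReal.ofReal_pow (norm_nonneg _), Real.norm_eq_abs, sq_abs]

/-- `‖u - u_σ‖₂ ≤ σ ‖∇u‖₂` -/
theorem Kern.l2_sub (hw : Kern σ W w) (hσ : 0 ≤ σ) {u : E n → ℝ} (hu : ContDiff ℝ 1 u) {R : ℝ}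
    (hR : R + σ ≤ 1) :
    ∫ x in ball (0 : E n) R, (u x - Mo w u x) ^ 2 ≤ σ ^ 2 * ∫ x in ball (0 : E n) 1, gsq u x := by
  have hc := hu.continuous
  have hpt : ∀ x, ENNReal.ofReal ((u x - Mo w u x) ^ 2)
      ≤ ∫⁻ t, ENNReal.ofReal (w t) * ‖u x - u (x - t)‖ₑ ^ 2 := by
    intro x
    have hd : Continuous fun t => u x - u (x - t) := by fun_prop
    have e : u x - Mo w u x = ∫ t, w t * (u x - u (x - t)) := by
      simp only [mul_sub, Mo, smul_eq_mul]
      rw [integral_sub (hw.int.mul_const _) (hw.int_mul hc x), integral_mul_const, hw.one, one_mul]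
    have i2 : Integrable fun t => w t * (u x - u (x - t)) ^ 2 :=
      (hw.cont.mul (hd.pow 2)).integrable_of_hasCompactSupport hw.cs.mul_right
    rw [e]
    refine (ENNReal.ofReal_le_ofReal (hw.jensen hd)).trans_eq ?_
    rw [ofReal_integral_eq_lintegral_ofReal i2
      (Eventually.of_forall fun t => mul_nonneg (hw.nn t) (sq_nonneg _))]
    refine lintegral_congr fun t => ?_
    rw [ENNReal.ofReal_mul (hw.nn t), enorm_sq]
  have hg := continuous_gsq hu
  have hg0 : ∀ x, 0 ≤ gsq u x := fun x => Finset.sum_nonneg fun i _ => sq_nonneg _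
  have hE : ∫⁻ x in ball (0 : E n) 1, ‖fderiv ℝ u x‖ₑ ^ 2
      = ENNReal.ofReal (∫ x in ball (0 : E n) 1, gsq u x) := by
    rw [ofReal_integral_eq_lintegral_ofReal (intOn_ball hg 0 1) (Eventually.of_forall hg0)]
    refine lintegral_congr fun x => ?_
    rw [gsq_eq, ← ofReal_norm, ← ENNReal.ofReal_pow (norm_nonneg _)]
  have hI0 : 0 ≤ ∫ x in ball (0 : E n) 1, gsq u x := integral_nonneg hg0
  have hcs : Continuous fun x => (u x - Mo w u x) ^ 2 := (hc.sub (hw.smooth hc).continuous).pow 2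
  rw [← ENNReal.ofReal_le_ofReal_iff (by positivity),
    ofReal_integral_eq_lintegral_ofReal (intOn_ball hcs 0 R)
      (Eventually.of_forall fun x => sq_nonneg _), ENNReal.ofReal_mul (sq_nonneg _), ← hE,
    ENNReal.ofReal_pow hσ]
  set J := ENNReal.ofReal σ ^ 2 * ∫⁻ x in ball (0 : E n) 1, ‖fderiv ℝ u x‖ₑ ^ 2 with hJ
  have hwm : Measurable fun t => ENNReal.ofReal (w t) := hw.cont.measurable.ennreal_ofReal
  calc _ ≤ ∫⁻ x in ball (0 : E n) R, ∫⁻ t, ENNReal.ofReal (w t) * ‖u x - u (x - t)‖ₑ ^ 2 :=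
        lintegral_mono hpt
    _ = ∫⁻ t, ∫⁻ x in ball (0 : E n) R, ENNReal.ofReal (w t) * ‖u x - u (x - t)‖ₑ ^ 2 := by
      rw [lintegral_lintegral_swap]
      have h1 : Continuous fun p : E n × E n => u p.1 - u (p.1 - p.2) := by fun_prop
      exact ((hwm.comp measurable_snd).mul (h1.measurable.enorm.pow_const 2)).aemeasurable
    _ ≤ ∫⁻ t, ENNReal.ofReal (w t) * J := by
      refine lintegral_mono fun t => ?_
      rw [lintegral_const_mul' _ _ ENNReal.ofReal_ne_top]
      by_cases ht : σ ≤ ‖t‖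
      · simp [hw.supp t ht]
      · gcongr
        exact trans_l2 hu hR (not_le.1 ht).le
    _ = J := by
      rw [lintegral_mul_const _ hwm, ← ofReal_integral_eq_lintegral_ofReal hw.int
        (Eventually.of_forall hw.nn), hw.one]
      simp

/-! ### `L¹` data give `C^{0,1}` bounds -/

theorem abs_int_le {φ h : E n → ℝ} {a δ : ℝ} (hh : Continuous h) (ha : ∀ s, |φ s| ≤ a)
    (h0 : ∀ s, s ∉ ball (0 : E n) 1 → φ s = 0) (hδ : ∫ s in ball (0 : E n) 1, |h s| ≤ δ) :
    |∫ s, φ s * h s| ≤ a * δ := by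
  have ha0 : 0 ≤ a := (abs_nonneg _).trans (ha 0)
  rw [← setIntegral_eq_integral_of_forall_compl_eq_zero (s := ball (0 : E n) 1)
    fun s hs => by rw [h0 s hs, zero_mul]]
  have i1 : IntegrableOn (fun s => a * |h s|) (ball (0 : E n) 1) :=
    (intOn_ball hh.abs 0 1).const_mul a
  refine (norm_integral_le_of_norm_le (f := fun s => φ s * h s) i1
    (Eventually.of_forall fun s => ?_)).trans ?_
  · rw [Real.norm_eq_abs, abs_mul]
    exact mul_le_mul_of_nonneg_right (ha s) (abs_nonneg _)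
  · rw [integral_const_mul]
    exact mul_le_mul_of_nonneg_left hδ ha0

theorem dual_le {φ H : E n → ℝ} {G : VectorField n} {a δ : ℝ} (hφ : ContDiff ℝ 1 φ)
    (hc : HasCompactSupport φ) (hH : Continuous H) (hG : ∀ k, ContDiff ℝ 1 fun x => G x k)
    (ha : ∀ s, |φ s| ≤ a) (ha1 : ∀ s k, |pderiv k φ s| ≤ a)
    (h0 : ∀ s, s ∉ ball (0 : E n) 1 → φ s = 0)
    (h1 : ∀ s k, s ∉ ball (0 : E n) 1 → pderiv k φ s = 0)
    (hδ : ∫ s in ball (0 : E n) 1, |H s - divE G s| ≤ δ)
    (hδ1 : ∀ k, ∫ s in ball (0 : E n) 1, |G s k| ≤ δ) :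
    |∫ s, φ s * H s| ≤ (1 + n) * (a * δ) := by
  have cd : Continuous (divE G) := continuous_finsetSum _ fun i _ => continuous_pd (hG i) i
  have i1 : Integrable fun s => φ s * (H s - divE G s) :=
    (hφ.continuous.mul (hH.sub cd)).integrable_of_hasCompactSupport hc.mul_right
  have i2 : Integrable fun s => φ s * divE G s :=
    (hφ.continuous.mul cd).integrable_of_hasCompactSupport hc.mul_right
  have e : ∫ s, φ s * H s = (∫ s, φ s * (H s - divE G s)) - ∑ k, ∫ s, pderiv k φ s * G s k := by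
    rw [← integral_finsetSum (f := fun k s => pderiv k φ s * G s k) _ fun k _ =>
      ((continuous_pd hφ k).mul
      (hG k).continuous).integrable_of_hasCompactSupport (hasCompactSupport_pd hc k).mul_right,
      sub_eq_add_neg, ← ibp_divE hφ hc hG, ← integral_add i1 i2]
    exact integral_congr_ae (Eventually.of_forall fun t => by ring)
  have b1 := abs_int_le (h := fun s => H s - divE G s) (hH.sub cd) ha h0 hδ
  have b2 : |∑ k, ∫ s, pderiv k φ s * G s k| ≤ n * (a * δ) := by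
    refine (Finset.abs_sum_le_sum_abs _ _).trans ?_
    refine (Finset.sum_le_sum fun k _ => abs_int_le (hG k).continuous (fun s => ha1 s k)
      (fun s hs => h1 s k hs) (hδ1 k)).trans_eq ?_
    simp
  rw [e]
  refine (abs_sub _ _).trans ?_
  linarith

theorem pd_refl {w : E n → ℝ} (hw : ContDiff ℝ 1 w) (x s : E n) (k : Fin n) :
    pderiv k (fun s => w (x - s)) s = -pderiv k w (x - s) := by
  have h : HasFDerivAt (fun s => w (x - s))
      ((fderiv ℝ w (x - s)).comp (-ContinuousLinearMap.id ℝ (E n))) s :=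
    (hw.differentiable one_ne_zero _).hasFDerivAt.comp s ((hasFDerivAt_id s).const_sub x)
  simp [pderiv, h.fderiv]

theorem lip_of {w : E n → ℝ} (hw : ContDiff ℝ 1 w) {W : ℝ} (h : ∀ t, ‖fderiv ℝ w t‖ ≤ W)
    (x y : E n) : |w x - w y| ≤ W * ‖x - y‖ :=
  convex_univ.norm_image_sub_le_of_norm_fderiv_le (fun t _ => hw.differentiable one_ne_zero t)
    (fun t _ => h t) (mem_univ y) (mem_univ x)

/-- sup and Lipschitz bound of the mollification of `H = (H - div G) + div G` -/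
theorem Kern.Mo_bound (hw : Kern σ W w) {H : E n → ℝ} {G : VectorField n} {δ R : ℝ}
    (hR : R + σ < 1) (hH : Continuous H) (hG : ∀ k, ContDiff ℝ 1 fun x => G x k)
    (hδ : ∫ s in ball (0 : E n) 1, |H s - divE G s| ≤ δ)
    (hδ1 : ∀ k, ∫ s in ball (0 : E n) 1, |G s k| ≤ δ) :
    (∀ x ∈ closedBall (0 : E n) R, |Mo w H x| ≤ (1 + n) * (W * δ)) ∧
      ∀ x ∈ closedBall (0 : E n) R, ∀ y ∈ closedBall (0 : E n) R,
        |Mo w H x - Mo w H y| ≤ (1 + n) * (W * δ) * ‖x - y‖ := by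
  have h1 := smooth_one hw.sm
  have sm : ∀ x : E n, ContDiff ℝ 1 fun s => w (x - s) := fun x =>
    h1.comp (contDiff_const.sub contDiff_id)
  have far : ∀ x ∈ closedBall (0 : E n) R, ∀ s, s ∉ ball (0 : E n) 1 → σ < ‖x - s‖ := by
    intro x hx s hs
    rw [mem_closedBall_zero_iff] at hx
    rw [mem_ball_zero_iff, not_lt] at hs
    have := norm_sub_norm_le s x
    rw [norm_sub_rev] at this
    linarith
  have z0 : ∀ x ∈ closedBall (0 : E n) R, ∀ s, s ∉ ball (0 : E n) 1 → w (x - s) = 0 :=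
    fun x hx s hs => hw.supp _ (far x hx s hs).le
  have z1 : ∀ x ∈ closedBall (0 : E n) R, ∀ s k, s ∉ ball (0 : E n) 1 →
      pderiv k (fun s => w (x - s)) s = 0 := fun x hx s k hs => by
    rw [pd_refl h1, pd_of_far hw.supp (far x hx s hs), neg_zero]
  have cs : ∀ x ∈ closedBall (0 : E n) R, HasCompactSupport fun s => w (x - s) := fun x hx =>
    hasCompactSupport_of_far (R := 1) fun s hs => z0 x hx s (by simpa using hs.le)
  refine ⟨fun x hx => ?_, fun x hx y hy => ?_⟩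
  · rw [Mo_eq]
    refine dual_le (sm x) (cs x hx) hH hG (fun s => hw.b0 _) (fun s k => ?_) (z0 x hx) (z1 x hx)
      hδ hδ1
    rw [pd_refl h1, abs_neg]
    exact (abs_pd_le _ _ _).trans (hw.b1 _)
  · have i : ∀ x ∈ closedBall (0 : E n) R, Integrable fun s => w (x - s) * H s := fun x hx =>
      ((sm x).continuous.mul hH).integrable_of_hasCompactSupport (cs x hx).mul_right
    have e : ∀ s k, pderiv k (fun s => w (x - s) - w (y - s)) s
        = pderiv k (fun s => w (x - s)) s - pderiv k (fun s => w (y - s)) s := fun s k =>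
      pd_sub ((sm x).differentiable one_ne_zero s) ((sm y).differentiable one_ne_zero s) k
    have key := dual_le (φ := fun s => w (x - s) - w (y - s)) (a := W * ‖x - y‖)
      ((sm x).sub (sm y)) ((cs x hx).sub (cs y hy)) hH hG
      (fun s => by simpa using lip_of h1 hw.b1 (x - s) (y - s))
      (fun s k => by
        rw [e, pd_refl h1, pd_refl h1, neg_sub_neg, abs_sub_comm]
        simpa using lip_of (smooth_one (contDiff_pd hw.sm k)) (hw.b2 · k) (x - s) (y - s))
      (fun s hs => by rw [z0 x hx s hs, z0 y hy s hs, sub_zero])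
      (fun s k hs => by rw [e, z1 x hx s k hs, z1 y hy s k hs, sub_zero]) hδ hδ1
    rw [Mo_eq, Mo_eq, ← integral_sub (i x hx) (i y hy)]
    simp only [sub_mul] at key
    exact key.trans_eq (by ring)

end Crest.Agent.N346.An

end
end

-- ▼ part N346/An/LinApp
section

/-!
Row 346, An: approximation by the constant coefficient system on the unit ball (helper53).
-/

set_option autoImplicit false
open MeasureTheory Filter Topology Set Metric
open scoped ContDiff ENNReal
open Crest.GeometryTopology.CoordMetric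
open Crest.MathPhysics.ExteriorData
open Crest.Agent.R238.Gap.Mol (Mo)
open Crest.Agent.R238 (HB Ell)
open Crest.Agent.N346.Bs

noncomputable section

namespace Crest.Agent.N346.An

variable {n : ℕ}

/-- Poincaré inequality with a point value. -/
def PoinStmt : Prop := ∀ n : ℕ, ∃ C : ℝ, 0 < C ∧ ∀ (ι : Type) [Fintype ι] (u : ι → E n → ℝ)
  (x0 : E n) (r : ℝ), 0 < r → (∀ l, ContDiff ℝ 1 (u l)) → ∃ y ∈ ball x0 r,
    ∫ x in ball x0 r, ∑ l, (u l x - u l y) ^ 2
      ≤ C * r ^ 2 * ∫ x in ball x0 r, ∑ l, gsq (u l) x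

/-- volume of the unit ball -/
def om (n : ℕ) : ℝ := volume.real (ball (0 : E n) 1)

theorem om_nonneg (n : ℕ) : 0 ≤ om n := measureReal_nonneg

theorem vol_ball (x : E n) {r : ℝ} (hr : 0 < r) : volume.real (ball x r) = r ^ n * om n := by
  unfold om
  rw [measureReal_def, measureReal_def, Measure.addHaar_ball_of_pos _ _ hr, ENNReal.toReal_mul,
    ENNReal.toReal_ofReal (by positivity)]
  simp

theorem int_ball_mono {h : E n → ℝ} (hh : Continuous h) (h0 : ∀ x, 0 ≤ h x) (x0 : E n)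
    {r R : ℝ} (hr : r ≤ R) : ∫ x in ball x0 r, h x ≤ ∫ x in ball x0 R, h x :=
  setIntegral_mono_set (intOn_ball hh x0 R) (Eventually.of_forall h0)
    (ball_subset_ball hr).eventuallyLE

theorem int_ball_le {h k : E n → ℝ} (hh : Continuous h) (hk : Continuous k) (x0 : E n) (r : ℝ)
    (hle : ∀ x ∈ ball x0 r, h x ≤ k x) : ∫ x in ball x0 r, h x ≤ ∫ x in ball x0 r, k x :=
  setIntegral_mono_on (intOn_ball hh x0 r) (intOn_ball hk x0 r) measurableSet_ball hle

theorem l2_tri {a b : E n → ℝ} (ha : Continuous a) (hb : Continuous b) (x0 : E n) (r : ℝ) :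
    ∫ x in ball x0 r, (a x + b x) ^ 2
      ≤ 2 * (∫ x in ball x0 r, a x ^ 2) + 2 * ∫ x in ball x0 r, b x ^ 2 := by
  have ia : IntegrableOn (fun x => a x ^ 2) (ball x0 r) := intOn_ball (ha.pow 2) x0 r
  have ib : IntegrableOn (fun x => b x ^ 2) (ball x0 r) := intOn_ball (hb.pow 2) x0 r
  rw [← integral_const_mul, ← integral_const_mul, ← integral_add (ia.const_mul 2) (ib.const_mul 2)]
  exact int_ball_le (by fun_prop) (by fun_prop) x0 r fun x _ => by
    nlinarith [sq_nonneg (a x - b x)]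

theorem norm_fderiv_le {u : E n → ℝ} {x : E n} {Q : ℝ} (h : ∀ i, |pderiv i u x| ≤ Q)
    (hQ : 0 ≤ Q) : ‖fderiv ℝ u x‖ ≤ n * Q := by
  refine ContinuousLinearMap.opNorm_le_bound _ (by positivity) fun v => ?_
  rw [fderiv_eq_sum, Real.norm_eq_abs]
  refine (Finset.abs_sum_le_sum_abs _ _).trans ?_
  refine (Finset.sum_le_sum (g := fun _ => Q * ‖v‖) fun i _ => ?_).trans_eq (by simp; ring)
  rw [abs_mul]
  exact mul_le_mul (h i) (by simpa using PiLp.norm_apply_le v i) (abs_nonneg _) hQ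

theorem lip_ball {u : E n → ℝ} (hu : ContDiff ℝ 1 u) {x0 : E n} {R Q : ℝ}
    (h : ∀ x ∈ closedBall x0 R, ∀ i, |pderiv i u x| ≤ Q) (hQ : 0 ≤ Q) {x y : E n}
    (hx : x ∈ closedBall x0 R) (hy : y ∈ closedBall x0 R) : |u x - u y| ≤ n * Q * ‖x - y‖ :=
  (convex_closedBall x0 R).norm_image_sub_le_of_norm_fderiv_le
    (fun t _ => hu.differentiable one_ne_zero t) (fun t ht => norm_fderiv_le (h t ht) hQ) hy hx

/-- `L2SchStmt` with a Lipschitz right hand side -/
theorem sch_lip (hL : L2SchStmt) (hn : 3 ≤ n) {lo hi R : ℝ} (hlo : 0 < lo) (hlh : lo ≤ hi)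
    (hR : 0 < R) (hR1 : R ≤ 1 / 2) : ∃ C : ℝ, 0 < C ∧
    ∀ (A : Matrix (Fin n) (Fin n) ℝ) (u : E n → ℝ) (N S : ℝ), Ell lo hi A → ContDiff ℝ ∞ u →
      0 ≤ S → (∀ x ∈ closedBall (0 : E n) R, |aD2 (fun _ => A) u x| ≤ N) →
      (∀ x ∈ closedBall (0 : E n) R, ∀ y ∈ closedBall (0 : E n) R,
        |aD2 (fun _ => A) u x - aD2 (fun _ => A) u y| ≤ N * ‖x - y‖) →
      (∫ x in ball (0 : E n) R, u x ^ 2) ≤ S ^ 2 →
      ∀ x ∈ closedBall (0 : E n) (R / 8), (∀ i, |pderiv i u x| ≤ C * (N + S)) ∧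
        ∀ i j, |pderiv i (pderiv j u) x| ≤ C * (N + S) := by
  obtain ⟨C, hC, H⟩ := hL n hn (1 / 2) lo hi R (by norm_num) (by norm_num) hlo hlh hR (by linarith)
  refine ⟨C, hC, fun A u N S hA hu hS h0 h1 h2 => H A u N S hA (hu.of_le
    (WithTop.coe_le_coe.2 (le_top : (3 : ℕ∞) ≤ ⊤))) hS h0 (fun x hx y hy => (h1 x hx y hy).trans ?_) h2⟩
  have hN : 0 ≤ N := (abs_nonneg _).trans (h0 0 (mem_closedBall_self hR.le))
  refine mul_le_mul_of_nonneg_left ?_ hN
  have hd : ‖x - y‖ ≤ 1 := by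
    rw [mem_closedBall_zero_iff] at hx hy
    linarith [norm_sub_le x y]
  calc ‖x - y‖ = ‖x - y‖ ^ (1 : ℝ) := (Real.rpow_one _).symm
    _ ≤ _ := Real.rpow_le_rpow_of_exponent_ge' (norm_nonneg _) hd (by norm_num) (by norm_num)

variable {σ W : ℝ} {w : E n → ℝ}

/-- distance to the mollified value at the centre -/
theorem Kern.near (hw : Kern σ W w) (hσ : 0 ≤ σ) {v : E n → ℝ} (hv : ContDiff ℝ 1 v) {θ Q : ℝ}
    (hθ : 0 < θ) (hθσ : θ + σ ≤ 1) (hQ : 0 ≤ Q)
    (h : ∀ x ∈ closedBall (0 : E n) θ, ∀ i, |pderiv i (Mo w v) x| ≤ Q) :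
    ∫ x in ball (0 : E n) θ, (v x - Mo w v 0) ^ 2
      ≤ 2 * (σ ^ 2 * ∫ x in ball (0 : E n) 1, gsq v x) + 2 * (θ ^ n * om n * (n * Q * θ) ^ 2) := by
  have hc := hv.continuous
  have hm := hw.smooth hc
  have h1 := l2_tri (a := fun x => v x - Mo w v x) (b := fun x => Mo w v x - Mo w v 0)
    (hc.sub hm.continuous) (hm.continuous.sub continuous_const) 0 θ
  simp only [sub_add_sub_cancel] at h1
  have h2 := hw.l2_sub hσ hv hθσ
  have h3 : ∫ x in ball (0 : E n) θ, (Mo w v x - Mo w v 0) ^ 2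
      ≤ ∫ _ in ball (0 : E n) θ, (n * Q * θ) ^ 2 := by
    refine int_ball_le (h := fun x => (Mo w v x - Mo w v 0) ^ 2) ((hm.continuous.sub continuous_const).pow 2) continuous_const 0 θ
      fun x hx => ?_
    have h4 := lip_ball (smooth_one hm) h hQ (ball_subset_closedBall hx) (mem_closedBall_self hθ.le)
    rw [sub_zero] at h4
    have h5 : n * Q * ‖x‖ ≤ n * Q * θ :=
      mul_le_mul_of_nonneg_left (mem_ball_zero_iff.1 hx).le (by positivity)
    exact sq_le_sq' (by linarith [neg_abs_le (Mo w v x - Mo w v 0)])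
      (by linarith [le_abs_self (Mo w v x - Mo w v 0)])
  rw [setIntegral_const, vol_ball _ hθ, smul_eq_mul] at h3
  linarith

theorem pd_affine {f : E n → ℝ} (hf : ContDiff ℝ ∞ f) (p : Fin n → ℝ) (c : ℝ) (l : Fin n) :
    pderiv l (fun x => f x - ∑ k, p k * x k - c) = fun x => pderiv l f x - p l := by
  funext x
  have hd : ∀ k, DifferentiableAt ℝ (fun y : E n => p k * y k) x := fun k => by fun_prop
  rw [pd_sub_const, pd_sub (smooth_diff hf x) (by fun_prop), pd_sum fun k _ => hd k]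
  simp [pd_const_mul, pd_coord]

theorem sum_gsq_pd (f z : E n → ℝ) (x : E n) :
    gsq z x + ∑ l, gsq (pderiv l f) x = en f z x := by
  unfold en
  rw [Finset.sum_comm, add_comm]
  rfl

theorem continuous_en {f z : E n → ℝ} (hf : ContDiff ℝ ∞ f) (hz : ContDiff ℝ ∞ z) :
    Continuous (en f z) := by
  have : en f z = fun x => gsq z x + ∑ l, gsq (pderiv l f) x := funext fun x =>
    (sum_gsq_pd f z x).symm
  rw [this]
  exact (continuous_gsq (smooth_one hz)).add
    (continuous_finsetSum _ fun l _ => continuous_gsq (smooth_one (contDiff_pd hf l)))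

theorem continuous_aD2 {u : E n → ℝ} (hu : ContDiff ℝ ∞ u) (A : Matrix (Fin n) (Fin n) ℝ) :
    Continuous (aD2 (fun _ => A) u) :=
  continuous_finsetSum _ fun i _ => continuous_finsetSum _ fun j _ =>
    continuous_const.mul (contDiff_pd (contDiff_pd hu j) i).continuous

theorem gsq_nn (u : E n → ℝ) (x : E n) : 0 ≤ gsq u x := Finset.sum_nonneg fun _ _ => sq_nonneg _

theorem osc_sq (f z : E n → ℝ) (zb : ℝ) (pb : Fin n → ℝ) (x : E n) :
    osc f z zb pb x ^ 2 = (z x - zb) ^ 2 + ∑ i, (pderiv i f x - pb i) ^ 2 :=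
  Real.sq_sqrt (by positivity)

theorem sq_comb {Q a b ε δ : ℝ} (h0 : 0 ≤ Q) (h : Q ≤ a * ε + b * δ) :
    Q ^ 2 ≤ 2 * a ^ 2 * ε ^ 2 + 2 * b ^ 2 * δ ^ 2 := by
  nlinarith [sq_nonneg (a * ε - b * δ), pow_le_pow_left₀ h0 h 2]

theorem ar1 {X A B C ε : ℝ} (hC : 0 ≤ C) (h : X ≤ 2 * A + 2 * B) (hA : A ≤ (1 + C) * ε ^ 2)
    (hB : B ≤ (C + C * C) * ε ^ 2) : X ≤ (2 * (C + 1) * ε) ^ 2 := by
  nlinarith [mul_nonneg hC (sq_nonneg ε), mul_nonneg (sq_nonneg C) (sq_nonneg ε), sq_nonneg ε]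

set_option maxHeartbeats 800000 in
theorem linApp (hP : PoinStmt) (hL : L2SchStmt) (hn : 3 ≤ n) {lo hi : ℝ} (hlo : 0 < lo)
    (hlh : lo ≤ hi) : ∃ C : ℝ, 0 < C ∧ ∀ θ : ℝ, 0 < θ → θ ≤ 1 / 128 → ∃ Cθ : ℝ, 0 < Cθ ∧
    ∀ (f z : E n → ℝ) (A1 A2 : Matrix (Fin n) (Fin n) ℝ) (b : Fin n → ℝ) (G : VectorField n)
      (M ε δ : ℝ), ContDiff ℝ ∞ f → ContDiff ℝ ∞ z → (∀ k, ContDiff ℝ 1 fun x => G x k) →
      Ell lo hi A1 → Ell lo hi A2 → (∀ i, |b i| ≤ hi) → (∀ x, |z x| ≤ M) →
      (∀ x i, |pderiv i f x| ≤ M) → 0 ≤ ε → (∫ x in ball (0 : E n) 1, en f z x) ≤ ε ^ 2 →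
      (∫ x in ball (0 : E n) 1, |aD2 (fun _ => A2) z x - divE G x|) ≤ δ →
      (∀ k, (∫ x in ball (0 : E n) 1, |G x k|) ≤ δ) →
      (∫ x in ball (0 : E n) 1, |aD2 (fun _ => A1) f x - ∑ i, b i * pderiv i z x|) ≤ δ →
      ∃ (zb : ℝ) (pb : Fin n → ℝ), |zb| ≤ M ∧ (∀ i, |pb i| ≤ M) ∧
        ∫ x in ball (0 : E n) θ, osc f z zb pb x ^ 2 ≤ θ ^ n * (C * θ ^ 2 * ε ^ 2 + Cθ * δ ^ 2) := by
  obtain ⟨C0, hC0, HP⟩ := hP n
  obtain ⟨C2, hC2, H2⟩ := sch_lip hL hn hlo hlh (R := 1 / 2) (by norm_num) le_rfl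
  obtain ⟨C1, hC1, H1⟩ := sch_lip hL hn hlo hlh (R := 1 / 16) (by norm_num) (by norm_num)
  have hhi : 0 < hi := hlo.trans_le hlh
  have hn1 : (1 : ℝ) ≤ n := by exact_mod_cast (by omega : 1 ≤ n)
  have hom := om_nonneg n
  set a2 := C2 * (2 * (C0 + 1)) with ha2
  set a1 := C1 * (n * hi * (n * a2) + 2 * (C0 + 1)) with ha1
  refine ⟨2 + 2 * om n * n ^ 2 * (2 * a2 ^ 2 + n * (2 * a1 ^ 2)), by positivity, fun θ hθ hθ1 => ?_⟩
  set σ := θ ^ (n + 1) with hσ
  have hσ0 : 0 < σ := by positivity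
  have hσθ : σ ≤ θ := by
    rw [hσ, pow_succ]
    exact mul_le_of_le_one_left hθ.le (pow_le_one₀ hθ.le (by linarith))
  have hσ2 : σ ^ 2 ≤ θ ^ n * θ ^ 2 := by
    have : σ ^ 2 = θ ^ n * (θ ^ n * θ ^ 2) := by rw [hσ]; ring
    rw [this]
    exact mul_le_of_le_one_left (by positivity) (pow_le_one₀ hθ.le (by linarith))
  obtain ⟨W, w, hw⟩ := exists_kern n hσ0
  have hW := hw.W_nonneg
  set b2 := C2 * ((1 + n) * W) with hb2
  set b1 := C1 * ((1 + n) * W + n * hi * (n * b2)) with hb1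
  refine ⟨1 + 2 * om n * n ^ 2 * (2 * b2 ^ 2 + n * (2 * b1 ^ 2)), by positivity, ?_⟩
  intro f z A1 A2 b G M ε δ hf hz hG hA1 hA2 hb hzM hfM hε hE hd0 hd1 hd2
  have hδ : 0 ≤ δ := (integral_nonneg fun x => abs_nonneg _).trans hd0
  have hz1 := smooth_one hz
  have hp1 : ∀ l, ContDiff ℝ 1 (pderiv l f) := fun l => smooth_one (contDiff_pd hf l)
  have cgz := continuous_gsq hz1
  have cgp : Continuous fun x => ∑ l, gsq (pderiv l f) x :=
    continuous_finsetSum _ fun l _ => continuous_gsq (hp1 l)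
  have hsplit : (∫ x in ball (0 : E n) 1, gsq z x)
      + (∫ x in ball (0 : E n) 1, ∑ l, gsq (pderiv l f) x) ≤ ε ^ 2 := by
    rw [← integral_add (intOn_ball cgz 0 1) (intOn_ball cgp 0 1)]
    simpa only [sum_gsq_pd] using hE
  have iz0 : 0 ≤ ∫ x in ball (0 : E n) 1, gsq z x := integral_nonneg (gsq_nn z)
  have ip0 : 0 ≤ ∫ x in ball (0 : E n) 1, ∑ l, gsq (pderiv l f) x :=
    integral_nonneg fun x => Finset.sum_nonneg fun l _ => gsq_nn _ x
  have hσ1 : σ ^ 2 ≤ 1 := pow_le_one₀ hσ0.le (by linarith)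
  have mz := hw.smooth hz.continuous
  -- the function `z`
  obtain ⟨y0, -, hy0⟩ := HP Unit (fun _ => z) 0 1 one_pos fun _ => hz1
  simp only [Finset.univ_unique, Finset.sum_singleton, one_pow, mul_one] at hy0
  have pdu : ∀ i, pderiv i (fun x => Mo w z x - z y0) = pderiv i (Mo w z) := fun i =>
    funext fun x => pd_sub_const _ _ i x
  have au : aD2 (fun _ => A2) (fun x => Mo w z x - z y0) = Mo w (aD2 (fun _ => A2) z) := by
    funext x
    rw [← hw.Mo_aD2 hz]
    simp only [aD2, pdu]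
  have B2 := hw.Mo_bound (R := 1 / 2) (by linarith) (continuous_aD2 hz A2) hG hd0 hd1
  have L2 : ∫ x in ball (0 : E n) (1 / 2), (Mo w z x - z y0) ^ 2 ≤ (2 * (C0 + 1) * ε) ^ 2 := by
    have h1 := l2_tri (a := fun x => -(z x - Mo w z x)) (b := fun x => z x - z y0)
      (hz.continuous.sub mz.continuous).neg (hz.continuous.sub continuous_const) 0 (1 / 2)
    have e : ∀ x, -(z x - Mo w z x) + (z x - z y0) = Mo w z x - z y0 := fun x => by ring
    simp only [e, neg_sq] at h1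
    have h2 := hw.l2_sub hσ0.le hz1 (R := 1 / 2) (by linarith)
    have h3 := int_ball_mono (h := fun x => (z x - z y0) ^ 2)
      ((hz.continuous.sub continuous_const).pow 2) (fun x => sq_nonneg _) 0
      (show (1 / 2 : ℝ) ≤ 1 by norm_num)
    have h4 : σ ^ 2 * ∫ x in ball (0 : E n) 1, gsq z x ≤ ε ^ 2 :=
      (mul_le_of_le_one_left iz0 hσ1).trans (by linarith)
    have h5 : C0 * ∫ x in ball (0 : E n) 1, gsq z x ≤ C0 * ε ^ 2 :=
      mul_le_mul_of_nonneg_left (by linarith) hC0.le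
    have h6 : 0 ≤ C0 * ε ^ 2 := by positivity
    have h7 : 0 ≤ C0 * C0 * ε ^ 2 := by positivity
    exact ar1 hC0.le h1 (by linarith) (by linarith)
  have Q2 := H2 A2 (fun x => Mo w z x - z y0) _ _ hA2 (mz.sub contDiff_const) (by positivity)
    (by rw [au]; exact B2.1) (by rw [au]; exact B2.2) L2
  simp only [pdu] at Q2
  set q2 := C2 * ((1 + n) * (W * δ) + 2 * (C0 + 1) * ε) with hq2
  have hq20 : 0 ≤ q2 := by positivity
  have eq2 : q2 = a2 * ε + b2 * δ := by rw [hq2, ha2, hb2]; ring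
  -- the function `f`
  obtain ⟨y1, -, hy1⟩ := HP (Fin n) (fun l => pderiv l f) 0 1 one_pos hp1
  simp only [one_pow, mul_one] at hy1
  set p : Fin n → ℝ := fun l => pderiv l f y1 with hp
  have sg : ∀ c : ℝ, ContDiff ℝ ∞ fun x : E n => f x - ∑ k, p k * x k - c := fun c =>
    (hf.sub (ContDiff.sum fun k _ => contDiff_const.mul
      (EuclideanSpace.proj (𝕜 := ℝ) k).contDiff)).sub contDiff_const
  have gg : ∀ c : ℝ, gsq (fun x : E n => f x - ∑ k, p k * x k - c)
      = fun x => ∑ l, (pderiv l f x - p l) ^ 2 := fun c => by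
    funext x
    simp only [gsq, pd_affine hf]
  obtain ⟨y2, -, hy2⟩ := HP Unit (fun _ x => f x - ∑ k, p k * x k - 0) 0 1 one_pos
    fun _ => smooth_one (sg 0)
  simp only [Finset.univ_unique, Finset.sum_singleton, one_pow, mul_one, gg] at hy2
  simp only [sub_zero] at hy2
  set g : E n → ℝ := fun x => f x - ∑ k, p k * x k - (f y2 - ∑ k, p k * y2 k) with hg
  have hgs : ContDiff ℝ ∞ g := sg _
  have mg := hw.smooth hgs.continuous
  have pp : ∀ i j, pderiv i (pderiv j g) = pderiv i (pderiv j f) := fun i j => by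
    rw [hg, pd_affine hf]
    exact funext fun x => pd_sub_const _ _ i x
  have ppm : ∀ i j, pderiv i (pderiv j (Mo w g)) = pderiv i (Mo w (pderiv j f)) := fun i j => by
    rw [hw.pd_Mo (smooth_one hgs), hw.pd_Mo (smooth_one (contDiff_pd hgs j)), pp,
      hw.pd_Mo (hp1 j)]
  have cb : Continuous fun x => ∑ i, b i * pderiv i z x :=
    continuous_finsetSum _ fun i _ => continuous_const.mul (continuous_pd hz1 i)
  set G2 : E n → ℝ := fun x => aD2 (fun _ => A1) f x - ∑ i, b i * pderiv i z x with hG2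
  have cG2 : Continuous G2 := (continuous_aD2 hf A1).sub cb
  have ag : ∀ x, aD2 (fun _ => A1) (Mo w g) x = Mo w G2 x + ∑ i, b i * pderiv i (Mo w z) x := by
    intro x
    have e1 : aD2 (fun _ => A1) g = aD2 (fun _ => A1) f := by
      funext y
      simp only [aD2, pp]
    have i1 : ∀ i, Integrable fun t => b i * (w t * pderiv i z (x - t)) := fun i =>
      (hw.int_mul (continuous_pd hz1 i) x).const_mul _
    rw [hw.Mo_aD2 hgs, e1]
    simp only [hw.pd_Mo hz1, Mo, smul_eq_mul, ← integral_const_mul]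
    rw [← integral_finsetSum _ fun i _ => i1 i,
      ← integral_add (hw.int_mul cG2 x) (integrable_finsetSum _ fun i _ => i1 i)]
    refine integral_congr_ae (Eventually.of_forall fun t => ?_)
    simp only [hG2, mul_sub, Finset.mul_sum, mul_left_comm (w t)]
    ring
  have B1 := hw.Mo_bound (R := 1 / 16) (G := fun _ _ => 0) (δ := δ) (by linarith) cG2
    (fun _ => contDiff_const) (by simpa [divE] using hd2) (fun _ => by simpa using hδ)
  have e16 : (1 / 2 / 8 : ℝ) = 1 / 16 := by norm_num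
  rw [e16] at Q2
  have sumb : ∀ (a : Fin n → ℝ) (t : ℝ), (∀ i, |a i| ≤ t) → |∑ i, b i * a i| ≤ n * hi * t := by
    intro a t ha
    refine (Finset.abs_sum_le_sum_abs _ _).trans ?_
    refine (Finset.sum_le_sum (g := fun _ => hi * t) fun i _ => ?_).trans_eq (by simp; ring)
    rw [abs_mul]
    exact mul_le_mul (hb i) (ha i) (abs_nonneg _) hhi.le
  have L1 : ∫ x in ball (0 : E n) (1 / 16), (Mo w g x) ^ 2 ≤ (2 * (C0 + 1) * ε) ^ 2 := by
    have h1 := l2_tri (a := fun x => -(g x - Mo w g x)) (b := g)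
      (hgs.continuous.sub mg.continuous).neg hgs.continuous 0 (1 / 16)
    have e : ∀ x, -(g x - Mo w g x) + g x = Mo w g x := fun x => by ring
    simp only [e, neg_sq] at h1
    have h2 := hw.l2_sub hσ0.le (smooth_one hgs) (R := 1 / 16) (by linarith)
    rw [hg, gg] at h2
    have h3 := int_ball_mono (h := fun x => g x ^ 2) (hgs.continuous.pow 2)
      (fun x => sq_nonneg _) 0 (show (1 / 16 : ℝ) ≤ 1 by norm_num)
    set J := ∫ x in ball (0 : E n) 1, ∑ l, (pderiv l f x - p l) ^ 2 with hJ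
    have hJ0 : 0 ≤ J := integral_nonneg fun x => by positivity
    have h4 : J ≤ C0 * ε ^ 2 := hy1.trans (mul_le_mul_of_nonneg_left (by linarith) hC0.le)
    have h5 : σ ^ 2 * J ≤ C0 * ε ^ 2 := (mul_le_of_le_one_left hJ0 hσ1).trans h4
    have h6 : C0 * J ≤ C0 * (C0 * ε ^ 2) := mul_le_mul_of_nonneg_left h4 hC0.le
    have h7 : ∫ x in ball (0 : E n) 1, g x ^ 2 ≤ C0 * J := hy2
    have h8 : ∫ x in ball (0 : E n) (1 / 16), (g x - Mo w g x) ^ 2 ≤ σ ^ 2 * J := h2
    have h9 : 0 ≤ C0 * ε ^ 2 := by positivity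
    exact ar1 hC0.le h1 (by linarith [sq_nonneg ε]) (by linarith)
  have Q1 := H1 A1 (Mo w g) ((1 + n) * (W * δ) + n * hi * (n * q2)) _ hA1 mg (by positivity)
    (fun x hx => by
      rw [ag]
      refine (abs_add_le _ _).trans (add_le_add (B1.1 x hx) ?_)
      exact sumb _ _ fun i => ((Q2 x hx).1 i).trans (le_mul_of_one_le_left hq20 hn1))
    (fun x hx y hy => by
      have e : aD2 (fun _ => A1) (Mo w g) x - aD2 (fun _ => A1) (Mo w g) y
          = (Mo w G2 x - Mo w G2 y)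
            + ∑ i, b i * (pderiv i (Mo w z) x - pderiv i (Mo w z) y) := by
        simp only [ag, mul_sub, Finset.sum_sub_distrib]
        ring
      have h1 := sumb _ (n * q2 * ‖x - y‖) fun i => lip_ball (smooth_one (contDiff_pd mz i))
        (fun t ht k => (Q2 t ht).2 k i) hq20 hx hy
      rw [e]
      refine (abs_add_le _ _).trans ((add_le_add (B1.2 x hx y hy) h1).trans_eq ?_)
      ring) L1
  set q1 := C1 * ((1 + n) * (W * δ) + n * hi * (n * q2) + 2 * (C0 + 1) * ε) with hq1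
  have hq10 : 0 ≤ q1 := by positivity
  have eq1 : q1 = a1 * ε + b1 * δ := by rw [hq1, eq2, ha1, hb1]; ring
  simp only [ppm] at Q1
  -- conclusion
  refine ⟨Mo w z 0, fun l => Mo w (pderiv l f) 0, hw.abs_Mo_le hzM 0,
    fun l => hw.abs_Mo_le (fun x => hfM x l) 0, ?_⟩
  have N2 := hw.near hσ0.le hz1 hθ (by linarith) hq20 fun x hx =>
    (Q2 x (closedBall_subset_closedBall (by linarith) hx)).1
  have N1 := fun l => hw.near hσ0.le (hp1 l) hθ (by linarith) hq10 fun x hx i =>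
    (Q1 x (closedBall_subset_closedBall (by linarith) hx)).2 i l
  have il : ∀ l, IntegrableOn (fun x => (pderiv l f x - Mo w (pderiv l f) 0) ^ 2)
      (ball (0 : E n) θ) := fun l => intOn_ball (((hp1 l).continuous.sub continuous_const).pow 2) 0 θ
  have iz : IntegrableOn (fun x => (z x - Mo w z 0) ^ 2) (ball (0 : E n) θ) :=
    intOn_ball ((hz.continuous.sub continuous_const).pow 2) 0 θ
  simp only [osc_sq]
  rw [integral_add iz (integrable_finsetSum _ fun l _ => il l),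
    integral_finsetSum _ fun l _ => il l]
  have N3 := Finset.sum_le_sum fun l (_ : l ∈ Finset.univ) => N1 l
  rw [Finset.sum_add_distrib, ← Finset.mul_sum, ← Finset.mul_sum,
    ← integral_finsetSum _ fun l _ => intOn_ball (continuous_gsq (hp1 l)) 0 1] at N3
  simp only [Finset.sum_const, Finset.card_univ, Fintype.card_fin, nsmul_eq_mul] at N3
  have s2 := sq_comb hq20 eq2.le
  have s1 := sq_comb hq10 eq1.le
  have hθn : 0 < θ ^ n := by positivity
  have t1 : σ ^ 2 * ((∫ x in ball (0 : E n) 1, gsq z x)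
      + ∫ x in ball (0 : E n) 1, ∑ l, gsq (pderiv l f) x) ≤ θ ^ n * θ ^ 2 * ε ^ 2 :=
    mul_le_mul hσ2 hsplit (by positivity) (by positivity)
  have hθ2 : θ ^ 2 ≤ 1 := pow_le_one₀ hθ.le (by linarith)
  set T := 2 * om n * n ^ 2 with hT
  have hT0 : 0 ≤ T := by positivity
  have t2 : q2 ^ 2 + n * q1 ^ 2 ≤ (2 * a2 ^ 2 + n * (2 * a1 ^ 2)) * ε ^ 2
      + (2 * b2 ^ 2 + n * (2 * b1 ^ 2)) * δ ^ 2 := by
    have := mul_le_mul_of_nonneg_left s1 (show (0 : ℝ) ≤ n by positivity)
    linarith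
  have t3 : θ ^ 2 * ((2 * b2 ^ 2 + n * (2 * b1 ^ 2)) * δ ^ 2)
      ≤ (2 * b2 ^ 2 + n * (2 * b1 ^ 2)) * δ ^ 2 := mul_le_of_le_one_left (by positivity) hθ2
  have t4 : θ ^ n * T * (θ ^ 2 * (q2 ^ 2 + n * q1 ^ 2)) ≤ θ ^ n * T *
      (θ ^ 2 * ((2 * a2 ^ 2 + n * (2 * a1 ^ 2)) * ε ^ 2)
        + (2 * b2 ^ 2 + n * (2 * b1 ^ 2)) * δ ^ 2) := by
    refine mul_le_mul_of_nonneg_left ?_ (by positivity)
    have := mul_le_mul_of_nonneg_left t2 (sq_nonneg θ)
    linarith
  have t5 : 0 ≤ θ ^ n * δ ^ 2 := by positivity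
  have t6 : 2 * (θ ^ n * om n * (n * q2 * θ) ^ 2) + n * (2 * (θ ^ n * om n * (n * q1 * θ) ^ 2))
      = θ ^ n * T * (θ ^ 2 * (q2 ^ 2 + n * q1 ^ 2)) := by rw [hT]; ring
  linarith

end Crest.Agent.N346.An

end
end

-- ▼ part N346/An/Excess

/-!
Row 346, An: excess decay (helper53).  `excess : PoinStmt → L2SchStmt → ExcessStmt`.
-/

set_option autoImplicit false
open MeasureTheory Filter Topology Set Metric
open scoped ContDiff ENNReal
open Crest.GeometryTopology.CoordMetric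
open Crest.MathPhysics.ExteriorData
open Crest.Agent.R238 (HB Ell)
open Crest.Agent.N346.Bs

noncomputable section

namespace Crest.Agent.N346.An

variable {n : ℕ}

theorem int_scale (F : E n → ℝ) (x0 : E n) {r : ℝ} (hr : 0 < r) (s : ℝ) :
    ∫ y in ball (0 : E n) s, F (x0 + r • y) = (∫ x in ball x0 (s * r), F x) / r ^ n := by
  have h1 := Measure.integral_comp_smul (volume : Measure (E n))
    (fun t => (ball x0 (s * r)).indicator F (x0 + t)) r
  rw [integral_add_left_eq_self ((ball x0 (s * r)).indicator F) x0,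
    integral_indicator measurableSet_ball] at h1
  have hfr : Module.finrank ℝ (E n) = n := by simp
  rw [hfr, smul_eq_mul, abs_of_pos (by positivity)] at h1
  rw [div_eq_inv_mul, ← h1, ← integral_indicator measurableSet_ball]
  refine integral_congr_ae (Eventually.of_forall fun y => ?_)
  have e : x0 + r • y ∈ ball x0 (s * r) ↔ y ∈ ball (0 : E n) s := by
    rw [mem_ball_iff_norm, add_sub_cancel_left, mem_ball_zero_iff, norm_smul, Real.norm_eq_abs,
      abs_of_pos hr, mul_comm s r, mul_lt_mul_iff_right₀ hr]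
  by_cases hy : y ∈ ball (0 : E n) s
  · simp only [indicator_of_mem hy, indicator_of_mem (e.2 hy)]
  · simp only [indicator_of_notMem hy, indicator_of_notMem (fun h => hy (e.1 h))]

theorem contDiff_scale {k : WithTop ℕ∞} {u : E n → ℝ} (hu : ContDiff ℝ k u) (c : ℝ) (x0 : E n)
    (r : ℝ) : ContDiff ℝ k fun y : E n => c * u (x0 + r • y) :=
  contDiff_const.mul (hu.comp (contDiff_const.add (contDiff_id.const_smul r)))

theorem pd_scale {u : E n → ℝ} (hu : ContDiff ℝ 1 u) (c : ℝ) (x0 : E n) (r : ℝ) (i : Fin n) :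
    pderiv i (fun y => c * u (x0 + r • y)) = fun y => (c * r) * pderiv i u (x0 + r • y) := by
  funext y
  have h1 : HasFDerivAt (fun t : E n => x0 + r • t) (r • ContinuousLinearMap.id ℝ (E n)) y := by
    simpa using ((hasFDerivAt_id (𝕜 := ℝ) y).const_smul r).const_add x0
  have h2 := ((hu.differentiable one_ne_zero (x0 + r • y)).hasFDerivAt.comp y h1).const_mul c
  have h3 : fderiv ℝ (fun y => c * u (x0 + r • y)) y = _ := h2.fderiv
  simp only [pderiv, h3]
  simp [mul_assoc]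

theorem amgm {r a e s : ℝ} (hs : s ^ 2 = e) :
    r * ((r + a) * s) ≤ r ^ 2 + a ^ 2 + r ^ 2 * e / 2 := by
  nlinarith [sq_nonneg (r + a - r * s), sq_nonneg (r - a)]

set_option maxHeartbeats 800000 in
theorem excess (hP : PoinStmt) (hL : L2SchStmt) : ExcessStmt := by
  intro n hn M K c hc hcK
  obtain ⟨C, hC, H⟩ := linApp hP hL hn hc hcK
  obtain ⟨C0, hC0, HP⟩ := hP n
  have hK : 0 < K := hc.trans_le hcK
  have hom := om_nonneg n
  refine ⟨C, hC, fun θ hθ hθ1 => ?_⟩
  obtain ⟨Cθ, hCθ, H⟩ := H θ hθ hθ1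
  set K' := K * (2 * om n + C0 + 1) with hK'
  refine ⟨Cθ * (2 * K' ^ 2), by positivity, fun f z hS x0 r hr hr1 => ?_⟩
  have hf := hS.sf
  have hz := hS.sz
  have hz1 := smooth_one hz
  have hf1 := smooth_one hf
  have hp1 : ∀ l, ContDiff ℝ 1 (pderiv l f) := fun l => smooth_one (contDiff_pd hf l)
  have cen := continuous_en hf hz
  have en0 : ∀ x, 0 ≤ en f z x := fun x => by
    rw [← sum_gsq_pd]
    exact add_nonneg (gsq_nn _ _) (Finset.sum_nonneg fun _ _ => gsq_nn _ _)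
  have hrn : 0 < r ^ n := by positivity
  -- the frozen state
  obtain ⟨y0, -, hy0⟩ := HP (Option (Fin n)) (fun o => o.elim z fun l => pderiv l f) x0 r hr
    fun o => by cases o <;> simp [hz1, hp1]
  simp only [Fintype.sum_option, Option.elim_none, Option.elim_some, sum_gsq_pd, ← osc_sq] at hy0
  set zb := z y0
  set pb : Fin n → ℝ := fun l => pderiv l f y0
  set o := osc f z zb pb with ho
  have o0 : ∀ x, 0 ≤ o x := fun x => Real.sqrt_nonneg _
  have co : Continuous o := by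
    refine Continuous.sqrt (((hz.continuous.sub continuous_const).pow 2).add ?_)
    exact continuous_finsetSum _ fun l _ => ((hp1 l).continuous.sub continuous_const).pow 2
  obtain ⟨A1, A2, b, G, hA1, hA2, hb, hG, hfr⟩ := hS.frz x0 zb pb (hS.bz y0) (hS.bf y0)
  set I := sE f z x0 r with hI
  have hIdef : I = r ^ 2 * (∫ x in ball x0 r, en f z x) / r ^ n := rfl
  have hI0 : 0 ≤ I := by
    rw [hIdef]
    exact div_nonneg (mul_nonneg (sq_nonneg _) (integral_nonneg en0)) hrn.le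
  -- rescaling
  have sc : Continuous fun y : E n => x0 + r • y := by fun_prop
  set ft : E n → ℝ := fun y => r⁻¹ * f (x0 + r • y) with hft
  set zt : E n → ℝ := fun y => 1 * z (x0 + r • y) with hzt
  set Gt : VectorField n := fun y k => r * G (x0 + r • y) k with hGt
  have pf : ∀ i, pderiv i ft = fun y => 1 * pderiv i f (x0 + r • y) := fun i => by
    rw [hft, pd_scale hf1, inv_mul_cancel₀ hr.ne']
  have pz : ∀ i, pderiv i zt = fun y => r * pderiv i z (x0 + r • y) := fun i => by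
    rw [hzt, pd_scale hz1, one_mul]
  have pff : ∀ i j y, pderiv i (pderiv j ft) y = r * pderiv i (pderiv j f) (x0 + r • y) :=
    fun i j y => by rw [pf, pd_scale (hp1 j), one_mul]
  have pzz : ∀ i j y, pderiv i (pderiv j zt) y = r * r * pderiv i (pderiv j z) (x0 + r • y) :=
    fun i j y => by rw [pz, pd_scale (smooth_one (contDiff_pd hz j))]
  have ent : ∀ y, en ft zt y = r ^ 2 * en f z (x0 + r • y) := fun y => by
    simp only [en, gsq, pff, pz, mul_pow, Finset.mul_sum, mul_add]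
  have dG : ∀ y, divE Gt y = r * r * divE G (x0 + r • y) := fun y => by
    simp only [divE, Finset.mul_sum]
    exact Finset.sum_congr rfl fun k _ => congrFun (pd_scale (hG k) r x0 r k) y
  have a2 : ∀ y, aD2 (fun _ => A2) zt y = r * r * aD2 (fun _ => A2) z (x0 + r • y) := fun y => by
    simp only [aD2, pzz, Finset.mul_sum, mul_left_comm (r * r)]
  have a1 : ∀ y, aD2 (fun _ => A1) ft y = r * aD2 (fun _ => A1) f (x0 + r • y) := fun y => by
    simp only [aD2, pff, Finset.mul_sum, mul_left_comm r]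
  have hE : ∫ y in ball (0 : E n) 1, r ^ 2 * en f z (x0 + r • y) = I := by
    rw [integral_const_mul, int_scale _ _ hr, one_mul, hIdef, mul_div_assoc]
  have hO : ∫ y in ball (0 : E n) 1, o (x0 + r • y) ^ 2 ≤ C0 * I := by
    rw [int_scale (fun x => o x ^ 2) _ hr, one_mul, hIdef, ← mul_div_assoc, ← mul_assoc]
    exact div_le_div_of_nonneg_right hy0 hrn.le
  -- a common majorant
  have c1 : Continuous fun y => o (x0 + r • y) ^ 2 := (co.comp sc).pow 2
  have c2 : Continuous fun y => r ^ 2 * en f z (x0 + r • y) := continuous_const.mul (cen.comp sc)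
  have maj : ∀ h : E n → ℝ, Continuous h → (∀ y ∈ ball (0 : E n) 1,
      h y ≤ K * (2 * r + o (x0 + r • y) ^ 2 + r ^ 2 * en f z (x0 + r • y))) →
      ∫ y in ball (0 : E n) 1, h y ≤ K' * (r + I) := by
    intro h hh hle
    refine (int_ball_le (k := fun y => K * (2 * r + o (x0 + r • y) ^ 2
      + r ^ 2 * en f z (x0 + r • y))) hh
      (continuous_const.mul ((continuous_const.add c1).add c2)) 0 1 hle).trans ?_
    have i0 : IntegrableOn (fun _ : E n => 2 * r) (ball (0 : E n) 1) :=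
      intOn_ball continuous_const 0 1
    have i1 : IntegrableOn (fun y : E n => 2 * r + o (x0 + r • y) ^ 2) (ball (0 : E n) 1) :=
      i0.add (intOn_ball c1 0 1)
    rw [integral_const_mul, integral_add i1 (intOn_ball c2 0 1),
      integral_add i0 (intOn_ball c1 0 1), hE, setIntegral_const, smul_eq_mul, hK', mul_assoc]
    refine mul_le_mul_of_nonneg_left ?_ hK.le
    have e : volume.real (ball (0 : E n) 1) = om n := rfl
    rw [e]
    nlinarith [mul_nonneg hom hI0, mul_nonneg hC0.le hr.le]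
  have hr2 : r ^ 2 ≤ r := by nlinarith
  have key : ∀ y ∈ ball (0 : E n) 1, r * ((‖x0 + r • y - x0‖ + o (x0 + r • y))
      * √(en f z (x0 + r • y))) ≤ r + o (x0 + r • y) ^ 2 + r ^ 2 * en f z (x0 + r • y) := by
    intro y hy
    have h1 : ‖x0 + r • y - x0‖ ≤ r := by
      rw [add_sub_cancel_left, norm_smul, Real.norm_eq_abs, abs_of_pos hr]
      exact mul_le_of_le_one_right hr.le (mem_ball_zero_iff.1 hy).le
    have h2 := amgm (r := r) (a := o (x0 + r • y)) (Real.sq_sqrt (en0 (x0 + r • y)))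
    have h3 : r * ((‖x0 + r • y - x0‖ + o (x0 + r • y)) * √(en f z (x0 + r • y)))
        ≤ r * ((r + o (x0 + r • y)) * √(en f z (x0 + r • y))) := by gcongr
    have h4 := mul_nonneg (sq_nonneg r) (en0 (x0 + r • y))
    linarith
  have sft : ContDiff ℝ ∞ ft := contDiff_scale hf _ _ _
  have szt : ContDiff ℝ ∞ zt := contDiff_scale hz _ _ _
  have sGt : ∀ k, ContDiff ℝ 1 fun y => Gt y k := fun k => contDiff_scale (hG k) _ _ _
  have cdG : Continuous (divE Gt) := continuous_finsetSum _ fun i _ => continuous_pd (sGt i) i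
  obtain ⟨zb', pb', h1, h2, h3⟩ := H ft zt A1 A2 b Gt M (√I) (K' * (r + I)) sft szt sGt hA1 hA2 hb
    (fun y => by simpa [hzt] using hS.bz _) (fun y i => by simpa [pf] using hS.bf _ i)
    (Real.sqrt_nonneg _) (by simp only [ent]; rw [hE, Real.sq_sqrt hI0])
    (maj _ ((continuous_aD2 szt A2).sub cdG).abs fun y _ => by
      have h4 := (hfr (x0 + r • y)).1
      have h5 := mul_le_mul_of_nonneg_left h4 (mul_self_nonneg r)
      show |aD2 (fun _ => A2) zt y - divE Gt y| ≤ _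
      rw [a2, dG, ← mul_sub, abs_mul, abs_of_nonneg (mul_self_nonneg r)]
      have h6 : K * r ^ 2 ≤ K * (2 * r + o (x0 + r • y) ^ 2) :=
        mul_le_mul_of_nonneg_left (by nlinarith [sq_nonneg (o (x0 + r • y))]) hK.le
      linarith)
    (fun k => maj _ (sGt k).continuous.abs fun y hy => by
      have h4 := mul_le_mul_of_nonneg_left ((hfr (x0 + r • y)).2.1 k) hr.le
      have h5 := mul_le_mul_of_nonneg_left (key y hy) hK.le
      show |r * G (x0 + r • y) k| ≤ _
      rw [abs_mul, abs_of_pos hr]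
      have h6 : 0 ≤ K * r := by positivity
      linarith)
    (maj _ ((continuous_aD2 sft A1).sub (continuous_finsetSum _ fun i _ =>
      continuous_const.mul (continuous_pd (smooth_one szt) i))).abs fun y hy => by
      have h4 := mul_le_mul_of_nonneg_left (hfr (x0 + r • y)).2.2 hr.le
      have h5 := mul_le_mul_of_nonneg_left (key y hy) hK.le
      show |aD2 (fun _ => A1) ft y - ∑ i, b i * pderiv i zt y| ≤ _
      have e : ∑ i, b i * pderiv i zt y = r * ∑ i, b i * pderiv i z (x0 + r • y) := by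
        simp only [pz, Finset.mul_sum, mul_left_comm r]
      rw [a1, e, ← mul_sub, abs_mul, abs_of_pos hr]
      linarith)
  refine ⟨zb', pb', h1, h2, ?_⟩
  have e1 : ∀ y, osc ft zt zb' pb' y = osc f z zb' pb' (x0 + r • y) := fun y => by
    simp only [osc, pf, hzt, one_mul]
  simp only [e1] at h3
  rw [int_scale (fun x => osc f z zb' pb' x ^ 2) _ hr, Real.sq_sqrt hI0] at h3
  have hθn : 0 < θ ^ n := by positivity
  have e2 : sX f z zb' pb' x0 (θ * r)
      = (∫ x in ball x0 (θ * r), osc f z zb' pb' x ^ 2) / r ^ n / θ ^ n := by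
    rw [sX, mul_pow, div_div, mul_comm (θ ^ n)]
  rw [e2, div_le_iff₀ hθn]
  refine h3.trans ?_
  rw [mul_comm (θ ^ n)]
  refine mul_le_mul_of_nonneg_right ?_ hθn.le
  have h4 : (K' * (r + I)) ^ 2 ≤ 2 * K' ^ 2 * (I ^ 2 + r ^ 2) := by
    nlinarith [mul_nonneg (sq_nonneg K') (sq_nonneg (r - I))]
  have h5 := mul_le_mul_of_nonneg_left h4 hCθ.le
  linarith

end Crest.Agent.N346.An

end
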